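import Crest.Agent.R121.Fin.Defs
import Crest.Agent.R124.LGT
import Mathlib

-- ▼ part R121/Fin/LBTr
section

/-!
# Row 121, FIN, LB: the `K`-trace vector and elements of `Ap`
-/

set_option autoImplicit false

namespace Crest.Agent.R121.Fin

section
variable {A : Type*} [CStarAlgebra A]
variable {H : Type*} [NormedAddCommGroup H] [InnerProductSpace ℂ H] [CompleteSpace H]
variable {ϖ : A →⋆ₐ[ℂ] (H →L[ℂ] H)} {p : A} {ξ : H} {K : ℝ}

open scoped InnerProductSpace

/-- `‖ϖ a v‖² = re ⟪ϖ (a⋆ a) v, v⟫` -/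
lemma norm_sq_star_mul (ϖ : A →⋆ₐ[ℂ] (H →L[ℂ] H)) (a : A) (v : H) :
    ‖ϖ a v‖ ^ 2 = (⟪ϖ (star a * a) v, v⟫_ℂ).re := by
  rw [map_mul, map_star, mul_apply_eq_comp, ContinuousLinearMap.star_eq_adjoint,
    ContinuousLinearMap.adjoint_inner_left, inner_self_eq_norm_sq_to_K]
  norm_cast


/-- polar trick: for `D p = D` there is `a = a⋆` in the corner with `‖ϖ a v‖ = ‖ϖ D v‖` -/
lemma lb_exists_abs {D : A} (hp : star p = p) (hD : D * p = D) :
    ∃ a : A, star a = a ∧ p * a = a ∧ a * p = a ∧ a * a = star D * D ∧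
      ∀ v, ‖ϖ a v‖ = ‖ϖ D v‖ := by
  letI := CStarAlgebra.spectralOrder A
  haveI := CStarAlgebra.spectralOrderedRing A
  set a : A := CFC.sqrt (star D * D) with ha
  have h0 : 0 ≤ star D * D := star_mul_self_nonneg D
  have h1 : a * a = star D * D := CFC.sqrt_mul_sqrt_self _ h0
  have h2 : star a = a := (CFC.sqrt_nonneg (star D * D)).isSelfAdjoint.star_eq
  have h3 : a * p = a := by
    have h4 : star (a * (1 - p)) * (a * (1 - p)) = 0 := by
      have : star (a * (1 - p)) * (a * (1 - p)) = (1 - p) * (a * a) * (1 - p) := by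
        rw [star_mul, star_sub, star_one, hp, h2]; noncomm_ring
      rw [this, h1]
      have h5 : D * (1 - p) = 0 := by rw [mul_sub, mul_one, hD, sub_self]
      rw [mul_assoc, mul_assoc, h5, mul_zero, mul_zero]
    have h5 : a * (1 - p) = 0 := by
      rwa [CStarRing.star_mul_self_eq_zero_iff] at h4
    rw [mul_sub, mul_one, sub_eq_zero] at h5
    exact h5.symm
  refine ⟨a, h2, ?_, h3, h1, fun v => ?_⟩
  · have := congrArg star h3
    rwa [star_mul, hp, h2] at this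
  · have h6 : ‖ϖ a v‖ ^ 2 = ‖ϖ D v‖ ^ 2 := by
      rw [norm_sq_star_mul, norm_sq_star_mul, h2, h1]
    exact (pow_left_inj₀ (norm_nonneg _) (norm_nonneg _) two_ne_zero).1 h6


lemma CU.norm_le_lb {u : A} (hp : star p = p) (hpp : p * p = p) (h : CU p u) : ‖u‖ ≤ 1 := by
  have h1 : ‖p‖ ≤ 1 := by
    have := CStarRing.norm_star_mul_self (x := p)
    rw [hp, hpp] at this
    nlinarith [norm_nonneg p]
  have h2 : ‖u‖ * ‖u‖ ≤ 1 := by rw [← CStarRing.norm_star_mul_self, h.st_mul]; exact h1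
  nlinarith [norm_nonneg u]



variable {n : ℕ} {e : Fin n → Fin n → A}

lemma MU.sum_norm_sq_lb (hm : MU p n e) (v : H) : ∑ i, ‖ϖ (e i i) v‖ ^ 2 ≤ ‖v‖ ^ 2 := by
  have h1 : ∑ i, ‖ϖ (e i i) v‖ ^ 2 = (⟪ϖ p v, v⟫_ℂ).re := by
    rw [← hm.sum, map_sum, _root_.sum_apply, sum_inner, Complex.re_sum]
    refine Finset.sum_congr rfl fun i _ => ?_
    rw [norm_sq_star_mul, hm.st, hm.mul, if_pos rfl]
  rw [h1]
  have h2 : (⟪ϖ p v, v⟫_ℂ).re = ‖ϖ p v‖ ^ 2 := by
    rw [norm_sq_star_mul, hm.star_p, hm.p_p]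
  have h3 : (⟪ϖ p v, v⟫_ℂ).re ≤ ‖ϖ p v‖ * ‖v‖ :=
    (Complex.re_le_norm _).trans (norm_inner_le_norm _ _)
  rw [h2] at h3 ⊢
  nlinarith [norm_nonneg (ϖ p v), norm_nonneg v, sq_nonneg (‖ϖ p v‖ - ‖v‖)]

lemma MU.norm_eq (hm : MU p n e) (i j : Fin n) (v : H) : ‖ϖ (e i j) v‖ = ‖ϖ (e j j) v‖ := by
  have h6 : ‖ϖ (e i j) v‖ ^ 2 = ‖ϖ (e j j) v‖ ^ 2 := by
    rw [norm_sq_star_mul, norm_sq_star_mul, hm.st, hm.st, hm.mul, hm.mul, if_pos rfl, if_pos rfl]
  exact (pow_left_inj₀ (norm_nonneg _) (norm_nonneg _) two_ne_zero).1 h6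

/-- **L1** -/
theorem Cor.sum_row_le (h : Cor ϖ p ξ K) (hm : MU p n e) {D : A} (hD : D * p = D) (j : Fin n) :
    ∑ i, ‖ϖ (D * e i j) ξ‖ ^ 2 ≤ K * ‖ϖ D ξ‖ ^ 2 := by
  obtain ⟨a, ha, hpa, hap, -, hn⟩ := lb_exists_abs (ϖ := ϖ) h.star_p hD
  have h1 : ∀ i, ‖ϖ (D * e i j) ξ‖ ^ 2 ≤ K * ‖ϖ (e i i) (ϖ a ξ)‖ ^ 2 := by
    intro i
    have h2 : ‖ϖ (D * e i j) ξ‖ = ‖ϖ (a * e i j) ξ‖ := by
      rw [map_mul, map_mul, mul_apply_eq_comp, mul_apply_eq_comp, hn]
    rw [h2]
    refine (h.hK (a * e i j) (by rw [← mul_assoc, hpa]) (by rw [mul_assoc, hm.right])).trans ?_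
    rw [star_mul, ha, hm.st, map_mul, mul_apply_eq_comp, hm.norm_eq]
  calc ∑ i, ‖ϖ (D * e i j) ξ‖ ^ 2 ≤ ∑ i, K * ‖ϖ (e i i) (ϖ a ξ)‖ ^ 2 :=
        Finset.sum_le_sum fun i _ => h1 i
    _ = K * ∑ i, ‖ϖ (e i i) (ϖ a ξ)‖ ^ 2 := by rw [Finset.mul_sum]
    _ ≤ K * ‖ϖ a ξ‖ ^ 2 := mul_le_mul_of_nonneg_left (hm.sum_norm_sq_lb _) h.K0
    _ = K * ‖ϖ D ξ‖ ^ 2 := by rw [hn]

end

end Crest.Agent.R121.Fin
end

-- ▼ part R121/Fin/LB12
section

/-!
# Row 121, FIN, LB (1), (2)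

`LB1`: little Grothendieck for `d(x) = S (y x) - S y x` on the relative commutant of the matrix
units; `LB2`: `∑ ‖d (e i k z) ξ‖² ≤ 24 K² ε² n` for every corner unitary `z`.
-/

set_option autoImplicit false

namespace Crest.Agent.R121.Fin

open Finset

section
variable {A : Type*} [CStarAlgebra A]
variable {H : Type*} [NormedAddCommGroup H] [InnerProductSpace ℂ H] [CompleteSpace H]
variable {ϖ : A →⋆ₐ[ℂ] (H →L[ℂ] H)} {p : A} {ξ : H} {K : ℝ}
variable {n : ℕ} {e : Fin n → Fin n → A}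

/-- `dd S y x = S (y x) - S y x` -/
noncomputable def dd (S : A →L[ℂ] A) (y : A) : A →L[ℂ] A :=
  S.comp (ContinuousLinearMap.mul ℂ A y) - ContinuousLinearMap.mul ℂ A (S y)

@[simp] lemma dd_apply (S : A →L[ℂ] A) (y x : A) : dd S y x = S (y * x) - S y * x := rfl

lemma dd_mul {S : A →L[ℂ] A} (hS : RMod e S) (y x : A) (i j : Fin n) :
    dd S y (x * e i j) = dd S y x * e i j := by
  rw [dd_apply, dd_apply, sub_mul, ← mul_assoc, hS, mul_assoc (S y)]

lemma dd_mul_p {S : A →L[ℂ] A} (hS : ∀ x, S (x * p) = S x ∧ S x * p = S x) {y x : A}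
    (hx : x * p = x) : dd S y x * p = dd S y x := by
  rw [dd_apply, sub_mul, (hS _).2, mul_assoc, hx]

/-- L2 -/
theorem Cor.le_sum_diag (h : Cor ϖ p ξ K) (hm : MU p n e) {D : A} (hD : D * p = D) :
    ‖ϖ D ξ‖ ^ 2 ≤ K * ∑ j, ‖ϖ (D * e j j) ξ‖ ^ 2 := by
  obtain ⟨a, ha, hpa, hap, -, hn⟩ := lb_exists_abs (ϖ := ϖ) h.star_p hD
  have h1 : ‖ϖ D ξ‖ ^ 2 = ∑ j, ‖ϖ (e j j * a) ξ‖ ^ 2 := by
    rw [← hn, norm_sq_star_mul]
    have h2 : star a * a = ∑ j, star (e j j * a) * (e j j * a) := by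
      have : ∀ j, star (e j j * a) * (e j j * a) = a * e j j * a := by
        intro j
        rw [star_mul, ha, hm.st, ← mul_assoc, mul_assoc a, hm.mul, if_pos rfl]
      simp_rw [this]
      rw [← sum_mul, ← mul_sum, hm.sum, hap, ha]
    rw [h2, map_sum, _root_.sum_apply, sum_inner, Complex.re_sum]
    refine sum_congr rfl fun j _ => ?_
    rw [norm_sq_star_mul]
  rw [h1, mul_sum]
  refine sum_le_sum fun j _ => ?_
  have h3 : ‖ϖ (D * e j j) ξ‖ = ‖ϖ (a * e j j) ξ‖ := by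
    rw [map_mul, map_mul, mul_apply_eq_comp, mul_apply_eq_comp, hn]
  rw [h3]
  refine (h.hK (e j j * a) (by rw [← mul_assoc, hm.left]) (by rw [mul_assoc, hap])).trans ?_
  rw [star_mul, ha, hm.st]

/-- `exk j k a = ∑ i, e i j * a * e k i` -/
def exk (e : Fin n → Fin n → A) (j k : Fin n) (a : A) : A := ∑ i, e i j * a * e k i

lemma MU.exk_mul (hm : MU p n e) (j k k' j' : Fin n) (a b : A) :
    exk e j k a * exk e k' j' b = exk e j j' (a * e k k' * b) := by
  unfold exk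
  rw [sum_mul]
  refine sum_congr rfl fun i _ => ?_
  rw [mul_sum, sum_eq_single i]
  · have : e k i * e i k' = e k k' := by rw [hm.mul, if_pos rfl]
    calc e i j * a * e k i * (e i k' * b * e j' i)
        = e i j * a * (e k i * e i k') * b * e j' i := by noncomm_ring
      _ = e i j * (a * e k k' * b) * e j' i := by rw [this]; noncomm_ring
  · intro i' _ hi'
    have : e k i * e i' k' = 0 := by rw [hm.mul, if_neg (Ne.symm hi')]
    calc e i j * a * e k i * (e i' k' * b * e j' i')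
        = e i j * a * (e k i * e i' k') * b * e j' i' := by noncomm_ring
      _ = 0 := by rw [this]; simp
  · intro hi; exact absurd (mem_univ i) hi

lemma MU.exk_star (hm : MU p n e) (j k : Fin n) (a : A) :
    star (exk e j k a) = exk e k j (star a) := by
  unfold exk
  rw [star_sum]
  refine sum_congr rfl fun i _ => ?_
  rw [star_mul, star_mul, hm.st, hm.st, mul_assoc]

lemma exk_sum_left {ι : Type*} (s : Finset ι) (j k : Fin n) (f : ι → A) :
    ∑ x ∈ s, exk e j k (f x) = exk e j k (∑ x ∈ s, f x) := by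
  unfold exk
  rw [sum_comm]
  refine sum_congr rfl fun i _ => ?_
  rw [mul_sum, sum_mul]

lemma MU.exk_p (hm : MU p n e) (j : Fin n) : exk e j j p = p := by
  unfold exk
  conv_rhs => rw [← hm.sum]
  refine sum_congr rfl fun i _ => ?_
  rw [hm.right, hm.mul, if_pos rfl]

lemma MU.exk_comm (hm : MU p n e) (j k : Fin n) (a : A) (s t : Fin n) :
    e s t * exk e j k a = exk e j k a * e s t := by
  unfold exk
  rw [mul_sum, sum_mul, sum_eq_single t, sum_eq_single s]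
  · have h1 : e s t * e t j = e s j := by rw [hm.mul, if_pos rfl]
    have h2 : e k s * e s t = e k t := by rw [hm.mul, if_pos rfl]
    rw [← mul_assoc, ← mul_assoc, h1, mul_assoc _ (e k s), h2]
  · intro i _ hi
    have h2 : e k i * e s t = 0 := by rw [hm.mul, if_neg hi]
    rw [mul_assoc, h2, mul_zero]
  · intro hi; exact absurd (mem_univ s) hi
  · intro i _ hi
    have h2 : e s t * e i j = 0 := by rw [hm.mul, if_neg (Ne.symm hi)]
    rw [← mul_assoc, ← mul_assoc, h2, zero_mul, zero_mul]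
  · intro hi; exact absurd (mem_univ t) hi

/-- relative commutant of the matrix units -/
def A0 (e : Fin n → Fin n → A) : StarSubalgebra ℂ A :=
  StarSubalgebra.centralizer ℂ (Set.range fun s : Fin n × Fin n => e s.1 s.2)

lemma MU.mem_A0 (hm : MU p n e) {x : A} : x ∈ A0 e ↔ ∀ i j, e i j * x = x * e i j := by
  unfold A0
  rw [StarSubalgebra.mem_centralizer_iff]
  constructor
  · intro h i j
    exact (h _ ⟨(i, j), rfl⟩).1
  · rintro h _ ⟨⟨i, j⟩, rfl⟩
    refine ⟨h i j, ?_⟩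
    rw [hm.st]
    exact h j i

instance : IsClosed ((A0 e : StarSubalgebra ℂ A) : Set A) := by
  unfold A0
  rw [StarSubalgebra.coe_centralizer]
  exact Set.isClosed_centralizer _

noncomputable instance : CStarAlgebra (A0 e : StarSubalgebra ℂ A) :=
  StarSubalgebra.cstarAlgebra _

lemma MU.p_comm (hm : MU p n e) {x : A} (hx : x ∈ A0 e) : p * x = x * p := by
  rw [← hm.sum, sum_mul, mul_sum]
  exact sum_congr rfl fun i _ => (hm.mem_A0.1 hx) i i

/-- the map of little Grothendieck -/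
lemma LB_bound (hm : MU p n e) (S : A →L[ℂ] A) (y : A) {ε : ℝ}
    (small : ∀ t, CU p t → (∀ i j, t * e i j = e i j * t) → ‖ϖ (dd S y t) ξ‖ ≤ ε)
    (x : A0 e) : ‖ϖ (dd S y ((x : A) * p)) ξ‖ ≤ 2 * ε * ‖x‖ := by
  obtain ⟨u, c, hx, hc⟩ := CStarAlgebra.exists_sum_four_unitary x
  have hcu : ∀ i, CU p (((u i : A0 e) : A) * p) := by
    intro i
    have h1 : star (((u i : A0 e) : A)) * ((u i : A0 e) : A) = 1 := by
      have := Unitary.star_mul_self (u i)
      exact congrArg (fun z : unitary (A0 e) => (((z : A0 e)) : A)) this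
    have h2 : ((u i : A0 e) : A) * star (((u i : A0 e) : A)) = 1 := by
      have := Unitary.mul_star_self (u i)
      exact congrArg (fun z : unitary (A0 e) => (((z : A0 e)) : A)) this
    have h3 := hm.p_comm (u i : A0 e).2
    refine ⟨?_, ?_, ?_, ?_⟩
    · rw [star_mul, hm.star_p, mul_assoc, ← mul_assoc (star _), h1, one_mul, hm.p_p]
    · rw [star_mul, hm.star_p, ← h3, mul_assoc, ← mul_assoc _ p, ← h3, mul_assoc, ← mul_assoc p,
        hm.p_p, h2, mul_one]
    · rw [← mul_assoc, h3, mul_assoc, hm.p_p]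
    · rw [mul_assoc, hm.p_p]
  have hco : ∀ i s t, ((u i : A0 e) : A) * p * e s t = e s t * (((u i : A0 e) : A) * p) := by
    intro i s t
    rw [mul_assoc, hm.left, ← mul_assoc, (hm.mem_A0.1 (u i : A0 e).2) s t, mul_assoc, hm.right]
  have h4 : ((x : A) * p) = ∑ i, c i • (((u i : A0 e) : A) * p) := by
    have : (x : A) = ∑ i, c i • ((u i : A0 e) : A) := by
      conv_lhs => rw [hx]
      simp
    rw [this, sum_mul]
    exact sum_congr rfl fun i _ => smul_mul_assoc _ _ _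
  have h5 : ϖ (dd S y ((x : A) * p)) ξ =
      ∑ i, c i • ϖ (dd S y (((u i : A0 e) : A) * p)) ξ := by
    rw [h4]
    simp only [map_sum, map_smul, _root_.sum_apply, _root_.smul_apply]
  rw [h5]
  refine (norm_sum_le _ _).trans ?_
  calc ∑ i, ‖c i • ϖ (dd S y (((u i : A0 e) : A) * p)) ξ‖
      ≤ ∑ i : Fin 4, (‖x‖ / 2) * ε := by
        refine sum_le_sum fun i _ => ?_
        rw [norm_smul]
        exact mul_le_mul (hc i) (small _ (hcu i) (hco i)) (norm_nonneg _) (by positivity)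
    _ = 2 * ε * ‖x‖ := by simp; ring

/-- **LB1** -/
theorem LB1 (hm : MU p n e) (S : A →L[ℂ] A) (y : A) {ε : ℝ}
    (small : ∀ t, CU p t → (∀ i j, t * e i j = e i j * t) → ‖ϖ (dd S y t) ξ‖ ≤ ε)
    {z : A} (hz : CU p z) :
    ∑ s : Fin n × Fin n, ‖ϖ (dd S y (exk e s.1 s.2 z)) ξ‖ ^ 2 ≤ 24 * ε ^ 2 * n := by
  have hε : 0 ≤ ε := (norm_nonneg _).trans (small p (CU.one' hm.star_p hm.p_p)
    (fun i j => by rw [hm.left, hm.right]))
  let T0 : A0 e →ₗ[ℂ] H :=
    { toFun := fun x => ϖ (dd S y ((x : A) * p)) ξ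
      map_add' := by intro x x'; simp [add_mul, mul_add]; abel
      map_smul' := by intro c x; simp [smul_sub] }
  let T : A0 e →L[ℂ] H := T0.mkContinuous (2 * ε) (fun x => LB_bound hm S y small x)
  have hT : ‖T‖ ≤ 2 * ε := LinearMap.mkContinuous_norm_le _ (by positivity) _
  have hTa : ∀ x : A0 e, T x = ϖ (dd S y ((x : A) * p)) ξ := fun x => rfl
  have hmem : ∀ s : Fin n × Fin n, exk e s.1 s.2 z ∈ A0 e := fun s =>
    hm.mem_A0.2 fun i j => hm.exk_comm _ _ _ _ _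
  let zz : Fin n × Fin n → A0 e := fun s => ⟨exk e s.1 s.2 z, hmem s⟩
  have hexp : ∀ s : Fin n × Fin n, exk e s.1 s.2 z * p = exk e s.1 s.2 z := by
    intro s
    unfold exk
    rw [sum_mul]
    exact sum_congr rfl fun i _ => by rw [mul_assoc, hm.right]
  letI := CStarAlgebra.spectralOrder (A0 e)
  haveI := CStarAlgebra.spectralOrderedRing (A0 e)
  have h1 := Crest.Agent.R124.LGT.lgt_list T ((univ : Finset (Fin n × Fin n)).toList.map zz)
  rw [List.map_map, Finset.sum_map_toList] at h1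
  have h2 : ∀ s, ((fun x => ‖T x‖ ^ 2) ∘ zz) s = ‖ϖ (dd S y (exk e s.1 s.2 z)) ξ‖ ^ 2 := by
    intro s
    simp only [Function.comp_apply, hTa, zz, hexp]
  simp_rw [h2] at h1
  have h3 : ((Crest.Agent.R124.LGT.qq ((univ : Finset (Fin n × Fin n)).toList.map zz) : A0 e) : A) =
      ((2 * n : ℕ) : ℂ) • p := by
    unfold Crest.Agent.R124.LGT.qq
    rw [List.map_map, Finset.sum_map_toList]
    have e1 : ∀ j, ∑ k, star (exk e k j z) * exk e k j z = p := by
      intro j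
      have : ∀ k, star (exk e k j z) * exk e k j z = exk e j j (star z * e k k * z) := by
        intro k; rw [hm.exk_star, hm.exk_mul]
      simp_rw [this]
      rw [exk_sum_left, ← sum_mul, ← mul_sum, hm.sum, mul_assoc, hz.left, hz.st_mul, hm.exk_p]
    have e2 : ∀ k, ∑ j, exk e k j z * star (exk e k j z) = p := by
      intro k
      have : ∀ j, exk e k j z * star (exk e k j z) = exk e k k (z * e j j * star z) := by
        intro j; rw [hm.exk_star, hm.exk_mul]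
      simp_rw [this]
      rw [exk_sum_left, ← sum_mul, ← mul_sum, hm.sum, hz.right, hz.mul_st, hm.exk_p]
    have e3 : ((∑ s, ((fun x : A0 e => star x * x + x * star x) ∘ zz) s : A0 e) : A) =
        ∑ s : Fin n × Fin n, (star (exk e s.1 s.2 z) * exk e s.1 s.2 z +
          exk e s.1 s.2 z * star (exk e s.1 s.2 z)) := by
      rw [AddSubmonoidClass.coe_finset_sum]
      rfl
    rw [e3, sum_add_distrib, Fintype.sum_prod_type, Fintype.sum_prod_type, sum_comm]
    simp_rw [e1, e2]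
    rw [sum_const, card_univ, Fintype.card_fin, two_mul, Nat.cast_add, add_smul,
      ← Nat.cast_smul_eq_nsmul ℂ]
  have h4 : ‖Crest.Agent.R124.LGT.qq ((univ : Finset (Fin n × Fin n)).toList.map zz)‖ ≤ 2 * n := by
    change ‖((Crest.Agent.R124.LGT.qq ((univ : Finset (Fin n × Fin n)).toList.map zz) : A0 e) : A)‖ ≤ _
    rw [h3, norm_smul]
    have : ‖p‖ ≤ 1 := (CU.one' hm.star_p hm.p_p).norm_le_lb hm.star_p hm.p_p
    rw [Complex.norm_natCast]
    push_cast
    nlinarith [norm_nonneg p, (Nat.cast_nonneg n : (0 : ℝ) ≤ n)]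
  refine h1.trans ?_
  have h5 : ‖T‖ ^ 2 ≤ (2 * ε) ^ 2 := pow_le_pow_left₀ (norm_nonneg _) hT 2
  calc 3 * ‖T‖ ^ 2 * ‖Crest.Agent.R124.LGT.qq ((univ : Finset (Fin n × Fin n)).toList.map zz)‖
      ≤ 3 * (2 * ε) ^ 2 * (2 * n) := by gcongr
    _ = 24 * ε ^ 2 * n := by ring

/-- **LB2** -/
theorem LB2 (h : Cor ϖ p ξ K) (hm : MU p n e) {S : A →L[ℂ] A} (hS : RMod e S)
    (hSp : ∀ x, S (x * p) = S x ∧ S x * p = S x) (y : A) {ε : ℝ}
    (small : ∀ t, CU p t → (∀ i j, t * e i j = e i j * t) → ‖ϖ (dd S y t) ξ‖ ≤ ε)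
    {z : A} (hz : CU p z) :
    ∑ s : Fin n × Fin n, ‖ϖ (dd S y (e s.1 s.2 * z)) ξ‖ ^ 2 ≤ 24 * K ^ 2 * ε ^ 2 * n := by
  have h1 : ∀ s : Fin n × Fin n, ‖ϖ (dd S y (e s.1 s.2 * z)) ξ‖ ^ 2 ≤
      K * ∑ j, ‖ϖ (dd S y (exk e s.2 j z) * e s.1 j) ξ‖ ^ 2 := by
    intro s
    refine (h.le_sum_diag hm (dd_mul_p hSp (by rw [mul_assoc, hz.right]))).trans_eq ?_
    congr 1
    refine sum_congr rfl fun j _ => ?_
    rw [← dd_mul hS, ← dd_mul hS]
    have : e s.1 s.2 * z * e j j = exk e s.2 j z * e s.1 j := by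
      unfold exk
      rw [sum_mul, sum_eq_single s.1]
      · rw [mul_assoc _ (e j s.1), hm.mul, if_pos rfl]
      · intro i _ hi
        rw [mul_assoc _ (e j i), hm.mul, if_neg hi, mul_zero]
      · intro hi; exact absurd (mem_univ _) hi
    rw [this]
  have h2 : ∀ k j, ∑ i, ‖ϖ (dd S y (exk e k j z) * e i j) ξ‖ ^ 2 ≤
      K * ‖ϖ (dd S y (exk e k j z)) ξ‖ ^ 2 := by
    intro k j
    refine h.sum_row_le hm (dd_mul_p hSp ?_) j
    unfold exk
    rw [sum_mul]
    exact sum_congr rfl fun i _ => by rw [mul_assoc, hm.right]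
  calc ∑ s : Fin n × Fin n, ‖ϖ (dd S y (e s.1 s.2 * z)) ξ‖ ^ 2
      ≤ ∑ s : Fin n × Fin n, K * ∑ j, ‖ϖ (dd S y (exk e s.2 j z) * e s.1 j) ξ‖ ^ 2 :=
        sum_le_sum fun s _ => h1 s
    _ = K * ∑ k, ∑ j, ∑ i, ‖ϖ (dd S y (exk e k j z) * e i j) ξ‖ ^ 2 := by
        rw [← mul_sum, Fintype.sum_prod_type, sum_comm]
        congr 1
        refine sum_congr rfl fun k _ => ?_
        rw [sum_comm]
    _ ≤ K * ∑ k, ∑ j, K * ‖ϖ (dd S y (exk e k j z)) ξ‖ ^ 2 :=
        mul_le_mul_of_nonneg_left (sum_le_sum fun k _ => sum_le_sum fun j _ => h2 k j) h.K0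
    _ = K ^ 2 * ∑ s : Fin n × Fin n, ‖ϖ (dd S y (exk e s.1 s.2 z)) ξ‖ ^ 2 := by
        rw [Fintype.sum_prod_type]
        simp_rw [← mul_sum]
        ring
    _ ≤ K ^ 2 * (24 * ε ^ 2 * n) :=
        mul_le_mul_of_nonneg_left (LB1 hm S y small hz) (sq_nonneg _)
    _ = 24 * K ^ 2 * ε ^ 2 * n := by ring

end

end Crest.Agent.R121.Fin
end

-- ▼ part R121/Fin/LBPhase

/-!
# Row 121, FIN, LB: phase averages

`PH`: averages of `‖∑ ψ_i(g) • F_i‖²` over a finite abelian group, `ψ_i` additive characters.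
`Om n R`: the group of pairs of families of phases, `wch f`: the character of a word.
-/

set_option autoImplicit false

namespace Crest.Agent.R121.Fin

open scoped InnerProductSpace
open Finset

section PH
variable {H : Type*} [NormedAddCommGroup H] [InnerProductSpace ℂ H]
variable {G : Type*} [AddCommGroup G] [Fintype G]
variable {ι : Type*} [Fintype ι]

open Classical in
theorem PH_eq (ψ : ι → AddChar G ℂ) (F : ι → H) :
    ∑ g, ‖∑ i, ψ i g • F i‖ ^ 2 =
      (Fintype.card G : ℝ) * ∑ i, ∑ j, if ψ j = ψ i then (⟪F i, F j⟫_ℂ).re else 0 := by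
  have h1 : ∀ g, ‖∑ i, ψ i g • F i‖ ^ 2 = ∑ i, ∑ j, ((ψ j - ψ i) g * ⟪F i, F j⟫_ℂ).re := by
    intro g
    have h2 : (‖∑ i, ψ i g • F i‖ ^ 2 : ℝ) = (⟪∑ i, ψ i g • F i, ∑ j, ψ j g • F j⟫_ℂ).re := by
      rw [inner_self_eq_norm_sq_to_K]; norm_cast
    rw [h2, sum_inner, Complex.re_sum]
    refine sum_congr rfl fun i _ => ?_
    rw [inner_sum, Complex.re_sum]
    refine sum_congr rfl fun j _ => ?_
    rw [inner_smul_left, inner_smul_right, AddChar.sub_apply, AddChar.map_neg_eq_conj]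
    ring_nf
  simp_rw [h1]
  rw [sum_comm, mul_sum]
  refine sum_congr rfl fun i _ => ?_
  rw [sum_comm, mul_sum]
  refine sum_congr rfl fun j _ => ?_
  rw [← Complex.re_sum, ← sum_mul, AddChar.sum_eq_ite]
  by_cases h : ψ j = ψ i
  · rw [if_pos (sub_eq_zero.2 h), if_pos h, ← Complex.ofReal_natCast, Complex.re_ofReal_mul]
  · rw [if_neg (fun h' => h (sub_eq_zero.1 h')), if_neg h]
    simp

theorem PH_inj (ψ : ι → AddChar G ℂ) (hψ : Function.Injective ψ) (F : ι → H) :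
    ∑ g, ‖∑ i, ψ i g • F i‖ ^ 2 = (Fintype.card G : ℝ) * ∑ i, ‖F i‖ ^ 2 := by
  classical
  rw [PH_eq]
  congr 1
  refine sum_congr rfl fun i _ => ?_
  rw [sum_eq_single i]
  · rw [if_pos rfl, inner_self_eq_norm_sq_to_K]; norm_cast
  · intro j _ hj
    rw [if_neg (fun h => hj (hψ h))]
  · intro hi; exact absurd (mem_univ i) hi

open Classical in
theorem PH_le (ψ : ι → AddChar G ℂ) (m : ℕ)
    (hψ : ∀ i, (univ.filter fun j => ψ j = ψ i).card ≤ m) (F : ι → H) :
    ∑ g, ‖∑ i, ψ i g • F i‖ ^ 2 ≤ (Fintype.card G : ℝ) * (m * ∑ i, ‖F i‖ ^ 2) := by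
  rw [PH_eq]
  refine mul_le_mul_of_nonneg_left ?_ (Nat.cast_nonneg _)
  have h1 : ∀ i j, (if ψ j = ψ i then (⟪F i, F j⟫_ℂ).re else 0) ≤
      (if ψ j = ψ i then ‖F i‖ ^ 2 / 2 else 0) + (if ψ i = ψ j then ‖F j‖ ^ 2 / 2 else 0) := by
    intro i j
    by_cases h : ψ j = ψ i
    · rw [if_pos h, if_pos h, if_pos h.symm]
      have h2 : (⟪F i, F j⟫_ℂ).re ≤ ‖F i‖ * ‖F j‖ :=
        (Complex.re_le_norm _).trans (norm_inner_le_norm _ _)
      nlinarith [sq_nonneg (‖F i‖ - ‖F j‖)]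
    · rw [if_neg h, if_neg h, if_neg (fun h' => h h'.symm), add_zero]
  have h2 : ∀ i, ∑ j, (if ψ j = ψ i then ‖F i‖ ^ 2 / 2 else 0) ≤ m * (‖F i‖ ^ 2 / 2) := by
    intro i
    rw [← sum_filter, sum_const, nsmul_eq_mul]
    exact mul_le_mul_of_nonneg_right (by exact_mod_cast hψ i) (by positivity)
  calc ∑ i, ∑ j, (if ψ j = ψ i then (⟪F i, F j⟫_ℂ).re else 0)
      ≤ ∑ i, ∑ j, ((if ψ j = ψ i then ‖F i‖ ^ 2 / 2 else 0) +
          (if ψ i = ψ j then ‖F j‖ ^ 2 / 2 else 0)) :=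
        sum_le_sum fun i _ => sum_le_sum fun j _ => h1 i j
    _ = ∑ i, ∑ j, (if ψ j = ψ i then ‖F i‖ ^ 2 / 2 else 0) +
          ∑ j, ∑ i, (if ψ i = ψ j then ‖F j‖ ^ 2 / 2 else 0) := by
        simp_rw [sum_add_distrib]
        congr 1
        exact sum_comm
    _ ≤ ∑ i, m * (‖F i‖ ^ 2 / 2) + ∑ j, m * (‖F j‖ ^ 2 / 2) :=
        add_le_add (sum_le_sum fun i _ => h2 i) (sum_le_sum fun j _ => h2 j)
    _ = m * ∑ i, ‖F i‖ ^ 2 := by
        rw [← sum_add_distrib, mul_sum]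
        exact sum_congr rfl fun i _ => by ring

end PH

section words

/-- equal fibre cardinalities: `g = f ∘ σ` -/
lemma exists_perm_of_card {k : ℕ} {α : Type*} [DecidableEq α] (f g : Fin k → α)
    (h : ∀ a, (univ.filter fun l => f l = a).card = (univ.filter fun l => g l = a).card) :
    ∃ σ : Equiv.Perm (Fin k), g = f ∘ σ := by
  have h1 : ∀ a, Nonempty ({l // g l = a} ≃ {l // f l = a}) := by
    intro a
    refine ⟨Fintype.equivOfCardEq ?_⟩
    rw [Fintype.card_subtype, Fintype.card_subtype, h a]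
  refine ⟨Equiv.ofFiberEquiv (f := g) (g := f) (fun a => (h1 a).some), ?_⟩
  funext l
  exact (Equiv.ofFiberEquiv_map (fun a => (h1 a).some) l).symm

variable (n R : ℕ)

/-- pairs of families of phases -/
abbrev Om := (Fin n → ZMod R) × (Fin n → ZMod R)

variable {n R} [NeZero R]

set_option linter.unusedSectionVars false

/-- the homomorphism of the letter `s = (i, j)` -/
def lh (s : Fin n × Fin n) : Om n R →+ ZMod R :=
  ((Pi.evalAddMonoidHom (fun _ => ZMod R) s.1).comp (AddMonoidHom.fst _ _)) +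
    ((Pi.evalAddMonoidHom (fun _ => ZMod R) s.2).comp (AddMonoidHom.snd _ _))

@[simp] lemma lh_apply (s : Fin n × Fin n) (ω : Om n R) : lh s ω = ω.1 s.1 + ω.2 s.2 := rfl

/-- the character of a word -/
noncomputable def wch {k : ℕ} (f : Fin k → Fin n × Fin n) : AddChar (Om n R) ℂ :=
  (ZMod.stdAddChar (N := R)).compAddMonoidHom (∑ l, lh (f l))

lemma wch_apply {k : ℕ} (f : Fin k → Fin n × Fin n) (ω : Om n R) :
    wch f ω = ZMod.stdAddChar (∑ l, (ω.1 (f l).1 + ω.2 (f l).2)) := by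
  simp [wch, AddChar.compAddMonoidHom_apply, AddMonoidHom.finsetSum_apply]

/-- the character of a letter -/
noncomputable def lch (s : Fin n × Fin n) : AddChar (Om n R) ℂ :=
  (ZMod.stdAddChar (N := R)).compAddMonoidHom (lh s)

lemma lch_apply (s : Fin n × Fin n) (ω : Om n R) :
    lch s ω = ZMod.stdAddChar (ω.1 s.1 + ω.2 s.2) := rfl

lemma wch_cons {k : ℕ} (s : Fin n × Fin n) (f : Fin k → Fin n × Fin n) (ω : Om n R) :
    wch (Fin.cons s f : Fin (k + 1) → Fin n × Fin n) ω = lch s ω * wch f ω := by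
  rw [wch_apply, wch_apply, lch_apply, Fin.sum_univ_succ]
  simp only [Fin.cons_zero, Fin.cons_succ]
  exact AddChar.map_add_eq_mul _ _ _

lemma natCast_inj_of_lt {a b : ℕ} (ha : a < R) (hb : b < R) (h : (a : ZMod R) = b) : a = b := by
  rw [ZMod.natCast_eq_natCast_iff'] at h
  rwa [Nat.mod_eq_of_lt ha, Nat.mod_eq_of_lt hb] at h

lemma wch_inj {k : ℕ} (hk : k < R) (f g : Fin k → Fin n × Fin n)
    (h : (wch g : AddChar (Om n R) ℂ) = wch f) :
    (∃ σ : Equiv.Perm (Fin k), Prod.fst ∘ g = (Prod.fst ∘ f) ∘ σ) ∧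
      (∃ τ : Equiv.Perm (Fin k), Prod.snd ∘ g = (Prod.snd ∘ f) ∘ τ) := by
  have h1 : ∀ ω : Om n R, ∑ l, (ω.1 (g l).1 + ω.2 (g l).2) = ∑ l, (ω.1 (f l).1 + ω.2 (f l).2) := by
    intro ω
    have h2 := DFunLike.congr_fun h ω
    rw [wch_apply, wch_apply] at h2
    exact ZMod.injective_stdAddChar h2
  constructor
  · refine exists_perm_of_card _ _ fun a => ?_
    have h3 := h1 (Pi.single a 1, 0)
    simp only [Pi.zero_apply, add_zero, Pi.single_apply] at h3
    rw [sum_boole, sum_boole] at h3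
    have h4 : ∀ q : Fin k → Fin n × Fin n, (univ.filter fun l => (q l).1 = a).card < R := fun q =>
      lt_of_le_of_lt ((card_filter_le _ _).trans (by simp)) hk
    exact (natCast_inj_of_lt (h4 g) (h4 f) h3).symm
  · refine exists_perm_of_card _ _ fun a => ?_
    have h3 := h1 (0, Pi.single a 1)
    simp only [Pi.zero_apply, zero_add, Pi.single_apply] at h3
    rw [sum_boole, sum_boole] at h3
    have h4 : ∀ q : Fin k → Fin n × Fin n, (univ.filter fun l => (q l).2 = a).card < R := fun q =>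
      lt_of_le_of_lt ((card_filter_le _ _).trans (by simp)) hk
    exact (natCast_inj_of_lt (h4 g) (h4 f) h3).symm

open Classical in
lemma wch_card {k : ℕ} (hk : k < R) (f : Fin k → Fin n × Fin n) :
    (univ.filter fun g : Fin k → Fin n × Fin n =>
      (wch g : AddChar (Om n R) ℂ) = wch f).card ≤ k.factorial ^ 2 := by
  have h1 : (univ.filter fun g : Fin k → Fin n × Fin n =>
      (wch g : AddChar (Om n R) ℂ) = wch f) ⊆
      (univ : Finset (Equiv.Perm (Fin k) × Equiv.Perm (Fin k))).image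
        (fun s => fun l => ((f (s.1 l)).1, (f (s.2 l)).2)) := by
    intro g hg
    rw [mem_filter] at hg
    obtain ⟨⟨σ, hσ⟩, ⟨τ, hτ⟩⟩ := wch_inj hk f g hg.2
    rw [mem_image]
    refine ⟨(σ, τ), mem_univ _, ?_⟩
    funext l
    exact Prod.ext (congrFun hσ l).symm (congrFun hτ l).symm
  refine (card_le_card h1).trans (card_image_le.trans ?_)
  rw [card_univ, Fintype.card_prod, Fintype.card_perm, Fintype.card_fin, pow_two]

lemma lch_inj (hR : 1 < R) : Function.Injective (lch : Fin n × Fin n → AddChar (Om n R) ℂ) := by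
  intro s t h
  have h1 : ∀ ω : Om n R, ω.1 s.1 + ω.2 s.2 = ω.1 t.1 + ω.2 t.2 := by
    intro ω
    have h2 := DFunLike.congr_fun h ω
    rw [lch_apply, lch_apply] at h2
    exact ZMod.injective_stdAddChar h2
  have : Fact (1 < R) := ⟨hR⟩
  refine Prod.ext ?_ ?_
  · by_contra hne
    have h3 := h1 (Pi.single s.1 1, 0)
    simp only [Pi.zero_apply, add_zero, Pi.single_apply, if_true] at h3
    rw [if_neg (fun h => hne h.symm)] at h3
    exact one_ne_zero h3
  · by_contra hne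
    have h3 := h1 (0, Pi.single s.2 1)
    simp only [Pi.zero_apply, zero_add, Pi.single_apply, if_true] at h3
    rw [if_neg (fun h => hne h.symm)] at h3
    exact one_ne_zero h3

end words

end Crest.Agent.R121.Fin
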