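import Mathlib
import Crest.Agent.R121.Fin.GrpAvg

-- ▼ part R121/Fin/Harm
section

/-!
# Row 121, block FIN: harmonic averaging operators (Cesàro ultrafilter limits)
-/

set_option autoImplicit false
set_option linter.unusedSectionVars false

namespace Crest.Agent.R121.Fin

open scoped InnerProductSpace Topology
open ContinuousLinearMap Filter

noncomputable section

universe u

variable {H : Type u} [NormedAddCommGroup H] [InnerProductSpace ℂ H] [CompleteSpace H]
variable {M : VonNeumannAlgebra H}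

lemma WTends.sum' {ι κ : Type*} {𝒰 : Ultrafilter ι} (s : Finset κ) {F : κ → ι → H →L[ℂ] H}
    {L : κ → H →L[ℂ] H} (h : ∀ k ∈ s, WTends 𝒰 (F k) (L k)) :
    WTends 𝒰 (fun i => ∑ k ∈ s, F k i) (∑ k ∈ s, L k) := by
  intro ξ η
  have := tendsto_finsetSum s fun k hk => h k hk ξ η
  simpa [sum_inner, sum_apply] using this

lemma WTends.norm_apply_le {ι : Type*} {𝒰 : Ultrafilter ι} {F : ι → H →L[ℂ] H}
    {D : H →L[ℂ] H} (hx : WTends 𝒰 F D) (ξ : H) {r : ℝ} (hr : 0 ≤ r)
    (h : ∀ᶠ a in (𝒰 : Filter ι), ‖F a ξ‖ ≤ r) : ‖D ξ‖ ≤ r := by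
  have h1 : Tendsto (fun a => ‖⟪F a ξ, D ξ⟫_ℂ‖) 𝒰 (𝓝 ‖⟪D ξ, D ξ⟫_ℂ‖) := (hx ξ (D ξ)).norm
  have h2 : ∀ᶠ a in (𝒰 : Filter ι), ‖⟪F a ξ, D ξ⟫_ℂ‖ ≤ r * ‖D ξ‖ := by
    filter_upwards [h] with a ha
    exact (norm_inner_le_norm _ _).trans (by gcongr)
  have h3 := le_of_tendsto h1 h2
  rw [inner_self_eq_norm_sq_to_K] at h3
  have h5 : ‖D ξ‖ ^ 2 ≤ r * ‖D ξ‖ := by
    have : ‖((RCLike.ofReal ‖D ξ‖ : ℂ)) ^ 2‖ = ‖D ξ‖ ^ 2 := by simp
    rw [this] at h3
    exact h3
  by_contra hcon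
  push Not at hcon
  have : 0 < ‖D ξ‖ := lt_of_le_of_lt hr hcon
  nlinarith

/-- `RMod` passes to pointwise weak limits -/
lemma rmod_limit {ι : Type*} {𝒰 : Ultrafilter ι} {Λ : ι → (EndA M →ₗ[ℂ] EndA M)}
    {L : EndA M →ₗ[ℂ] EndA M} (h : ATends 𝒰 Λ L) {p : M.toStarSubalgebra} {n : ℕ}
    {e : Fin n → Fin n → M.toStarSubalgebra} (hΛ : ∀ i T, RMod e (cut p (Λ i T))) (T : EndA M) :
    RMod e (cut p (L T)) := by
  intro x i j
  refine Subtype.ext ?_
  have h1 := (h T (x * e i j * p)).mul_right ((p : M.toStarSubalgebra) : H →L[ℂ] H)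
  have h2 := ((h T (x * p)).mul_right ((p : M.toStarSubalgebra) : H →L[ℂ] H)).mul_right
    ((e i j : M.toStarSubalgebra) : H →L[ℂ] H)
  refine h1.unique ?_
  refine (funext fun k => ?_ : (fun k => ((Λ k T (x * e i j * p) : M.toStarSubalgebra) : H →L[ℂ] H)
    * ((p : M.toStarSubalgebra) : H →L[ℂ] H)) = fun k => ((Λ k T (x * p) : M.toStarSubalgebra) :
    H →L[ℂ] H) * ((p : M.toStarSubalgebra) : H →L[ℂ] H) *
    ((e i j : M.toStarSubalgebra) : H →L[ℂ] H)) ▸ h2
  exact congrArg Subtype.val (hΛ k T x i j)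

lemma rmod_wavg {Ω : Type*} [Fintype Ω] {p : M.toStarSubalgebra} (hs : star p = p)
    (hp : p * p = p) {t : Ω → M.toStarSubalgebra} (ht : ∀ ω, CU p (t ω)) (w : Ω → ℝ)
    {n : ℕ} {e : Fin n → Fin n → M.toStarSubalgebra} (he : MU p n e)
    (hte : ∀ ω i j, t ω * e i j = e i j * t ω) {T : EndA M} (hT : RMod e (cut p T)) :
    RMod e (cut p (wavg p w t T)) := by
  intro x i j
  refine cut_wavg_mul_of hs hp ht w T (e i j) (fun _ => e i j) (fun ω => (hte ω i j).symm)
    (fun ω => ?_) (fun ω x => hT x i j) x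
  have h3 := congrArg star (hte ω j i)
  rw [star_mul, star_mul, he.st] at h3
  exact h3

lemma rmod_add {n : ℕ} {e : Fin n → Fin n → M.toStarSubalgebra} {S S' : EndA M} (h : RMod e S)
    (h' : RMod e S') : RMod e (S + S') := by
  intro x i j
  rw [add_apply, add_apply, h, h', add_mul]

lemma rmod_smul {n : ℕ} {e : Fin n → Fin n → M.toStarSubalgebra} {S : EndA M} (c : ℂ)
    (h : RMod e S) : RMod e (c • S) := by
  intro x i j
  rw [smul_apply, smul_apply, h, smul_mul_assoc]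

lemma rmod_sum {κ : Type*} (s : Finset κ) {n : ℕ} {e : Fin n → Fin n → M.toStarSubalgebra}
    {S : κ → EndA M} (h : ∀ k ∈ s, RMod e (S k)) : RMod e (∑ k ∈ s, S k) := by
  intro x i j
  rw [sum_apply, sum_apply, Finset.sum_mul]
  exact Finset.sum_congr rfl fun k hk => h k hk x i j

set_option maxHeartbeats 1000000 in
/-- **Existence of an averaging operator which is right modular over the matrix units and harmonic
for a given random unitary commuting with the matrix units.** -/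
theorem exists_harm {p : M.toStarSubalgebra} {n : ℕ} {e : Fin n → Fin n → M.toStarSubalgebra}
    (he : MU p n e) {Ω : Type*} [Fintype Ω] {w : Ω → ℝ} (hw : ∀ ω, 0 ≤ w ω) (hw1 : ∑ ω, w ω = 1)
    {t : Ω → M.toStarSubalgebra} (ht : ∀ ω, CU p (t ω))
    (hte : ∀ ω i j, t ω * e i j = e i j * t ω) :
    ∃ Λ : EndA M →ₗ[ℂ] EndA M, IsAvg Λ ∧ (∀ T, RMod e (cut p (Λ T))) ∧
      ∀ T x, ∑ ω, (w ω : ℂ) • (cut p (Λ T) (x * t ω) * star (t ω)) = cut p (Λ T) x := by
  have hs := he.star_p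
  have hp := he.p_p
  obtain ⟨Λ₀, hΛ₀, hΛ₀r⟩ := exists_rmod_avg he
  let P : Module.End ℂ (EndA M) := wavg p w t
  have hP : IsAvg (wavg p w t) := wavg_isAvg hs hp hw hw1 ht
  have hPk : ∀ k : ℕ, IsAvg (P ^ k : Module.End ℂ (EndA M)) := by
    intro k
    induction k with
    | zero => exact IsAvg.id
    | succ k ih => rw [pow_succ]; exact ih.comp hP
  have hPr : ∀ (k : ℕ) T, RMod e (cut p ((P ^ k) (Λ₀ T))) := by
    intro k T
    induction k with
    | zero => exact hΛ₀r T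
    | succ k ih =>
      rw [pow_succ']
      exact rmod_wavg hs hp ht w he hte ih
  let v : ℕ → ℝ := fun N => ((N : ℝ) + 1)⁻¹
  have hv : ∀ N, 0 ≤ v N := fun N => by positivity
  let B : ℕ → Module.End ℂ (EndA M) := fun N => ∑ k ∈ Finset.range (N + 1), (v N : ℂ) • P ^ k
  have hB : ∀ N, IsAvg (B N) := fun N => by
    refine IsAvg.convex (s := Finset.range (N + 1)) (w := fun _ => v N) (fun _ _ => hv N) ?_
      (fun k _ => hPk k)
    simp only [Finset.sum_const, Finset.card_range, nsmul_eq_mul, v]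
    push_cast
    field_simp
  let C : ℕ → (EndA M →ₗ[ℂ] EndA M) := fun N => B N ∘ₗ Λ₀
  have hC : ∀ N, IsAvg (C N) := fun N => (hB N).comp hΛ₀
  obtain ⟨Λ, hΛ, hlim⟩ := exists_limit (hyperfilter ℕ) hC
  have hlim' : ATends (hyperfilter ℕ) C Λ := hlim
  have hCr : ∀ N T, RMod e (cut p (C N T)) := by
    intro N T
    change RMod e (cut p (B N (Λ₀ T)))
    have h1 : B N (Λ₀ T) = ∑ k ∈ Finset.range (N + 1), (v N : ℂ) • (P ^ k) (Λ₀ T) := by
      change (∑ k ∈ Finset.range (N + 1), (v N : ℂ) • P ^ k) (Λ₀ T) = _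
      rw [LinearMap.sum_apply]
      rfl
    rw [h1, cut_sum]
    refine rmod_sum _ fun k _ => ?_
    rw [cut_smul]
    exact rmod_smul _ (hPr k T)
  refine ⟨Λ, hΛ, fun T => rmod_limit hlim' hCr T, ?_⟩
  -- harmonicity
  have h1 : ∀ T x, WTends (hyperfilter ℕ)
      (fun N => ((wavg p w t (C N T) x : M.toStarSubalgebra) : H →L[ℂ] H))
      ((wavg p w t (Λ T) x : M.toStarSubalgebra) : H →L[ℂ] H) := by
    intro T x
    have e1 : ∀ S : EndA M, ((wavg p w t S x : M.toStarSubalgebra) : H →L[ℂ] H)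
        = ∑ ω, (w ω : ℂ) • (((S (x * ext1 p (t ω)) : M.toStarSubalgebra) : H →L[ℂ] H) *
          ((star (ext1 p (t ω)) : M.toStarSubalgebra) : H →L[ℂ] H)) := by
      intro S
      unfold wavg
      rw [LinearMap.sum_apply, sum_apply]
      rw [AddSubmonoidClass.coe_finsetSum]
      rfl
    rw [e1]
    refine (funext fun N => (e1 (C N T)) : (fun N => ((wavg p w t (C N T) x : M.toStarSubalgebra) :
      H →L[ℂ] H)) = _) ▸ ?_
    exact WTends.sum' _ fun ω _ => ((hlim' T _).mul_right _).smul _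
  have h2 : ∀ T x, wavg p w t (Λ T) x = Λ T x := by
    intro T x
    refine Subtype.ext ?_
    refine (h1 T x).unique ?_
    refine (hlim' T x).congr' ?_
    have h3 : ∀ N, P * B N - B N = (v N : ℂ) • (P ^ (N + 1) - 1) :=
      fun N => cesaro_telescope P (v N : ℂ) N
    have h4 : ∀ N, ‖((wavg p w t (C N T) x : M.toStarSubalgebra) : H →L[ℂ] H)
        - ((C N T x : M.toStarSubalgebra) : H →L[ℂ] H)‖ ≤ v N * (2 * (‖Λ₀ T‖ * ‖x‖)) := by
      intro N
      have e1 : ((wavg p w t (C N T) x : M.toStarSubalgebra) : H →L[ℂ] H)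
        - ((C N T x : M.toStarSubalgebra) : H →L[ℂ] H)
          = (((P * B N - B N) (Λ₀ T) x : M.toStarSubalgebra) : H →L[ℂ] H) := rfl
      rw [e1, h3]
      exact norm_smul_sub_le (hv N) ((hPk (N + 1)).apply_le (Λ₀ T) x) (IsAvg.id.apply_le (Λ₀ T) x)
    refine squeeze_zero (fun _ => norm_nonneg _) h4 ?_
    have h5 : Tendsto (fun N : ℕ => v N * (2 * (‖Λ₀ T‖ * ‖x‖))) atTop
        (𝓝 (0 * (2 * (‖Λ₀ T‖ * ‖x‖)))) := by
      refine Tendsto.mul_const _ ?_
      simpa [v, one_div] using tendsto_one_div_add_atTop_nhds_zero_nat (𝕜 := ℝ)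
    rw [zero_mul] at h5
    exact h5.mono_left Nat.hyperfilter_le_atTop
  intro T x
  rw [← cut_wavg hs hp w ht]
  rw [cut_apply, cut_apply, h2]

end

end Crest.Agent.R121.Fin
end

-- ▼ part R121/Fin/Minimax

/-!
# Row 121, block FIN: a finite-dimensional minimax lemma
-/

set_option autoImplicit false

namespace Crest.Agent.R121.Fin

open scoped Topology

noncomputable section

theorem minimax_fin {V : Type*} [AddCommGroup V] [Module ℝ V] {K : Set V}
    {J : Type*} [Fintype J] [DecidableEq J] (F : J → V → ℝ) (hF : ∀ j, ConvexOn ℝ K (F j))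
    (hK : Convex ℝ K) (hne : K.Nonempty) (c : ℝ)
    (h : ∀ w : J → ℝ, (∀ j, 0 ≤ w j) → ∑ j, w j = 1 → ∃ v ∈ K, ∑ j, w j * F j v ≤ c)
    {δ : ℝ} (hδ : 0 < δ) : ∃ v ∈ K, ∀ j, F j v < c + δ := by
  by_contra hcon
  push Not at hcon
  set C : Set (J → ℝ) := {v | ∃ x ∈ K, ∀ j, F j x ≤ v j} with hC
  set B : Set (J → ℝ) := Set.pi Set.univ (fun _ => Set.Iio (c + δ)) with hB
  have hCc : Convex ℝ C := by
    rintro v ⟨x, hx, hxv⟩ v' ⟨x', hx', hxv'⟩ a b ha hb hab
    refine ⟨a • x + b • x', hK hx hx' ha hb hab, fun j => ?_⟩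
    refine ((hF j).2 hx hx' ha hb hab).trans ?_
    simp only [Pi.add_apply, Pi.smul_apply, smul_eq_mul]
    exact add_le_add (mul_le_mul_of_nonneg_left (hxv j) ha) (mul_le_mul_of_nonneg_left (hxv' j) hb)
  have hBc : Convex ℝ B := convex_pi fun _ _ => convex_Iio _
  have hBo : IsOpen B := isOpen_set_pi Set.finite_univ fun _ _ => isOpen_Iio
  have hdisj : Disjoint B C := by
    rw [Set.disjoint_left]
    rintro v hvB ⟨x, hx, hxv⟩
    obtain ⟨j, hj⟩ := hcon x hx
    have h1 : v j < c + δ := hvB j (Set.mem_univ j)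
    linarith [hxv j]
  obtain ⟨f, u, hfB, hfC⟩ := geometric_hahn_banach_open hBc hBo hCc hdisj
  set w : J → ℝ := fun j => f (Pi.single j 1) with hw
  have hfw : ∀ v : J → ℝ, f v = ∑ j, w j * v j := by
    intro v
    have h1 : v = ∑ j, v j • (Pi.single j (1 : ℝ) : J → ℝ) := by
      ext i
      simp [Finset.sum_apply, Pi.single_apply]
    conv_lhs => rw [h1]
    rw [map_sum]
    refine Finset.sum_congr rfl fun j _ => ?_
    rw [map_smul, smul_eq_mul, mul_comm]
  obtain ⟨x₀, hx₀⟩ := hne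
  have hb₀ : (fun j => F j x₀) ∈ C := ⟨x₀, hx₀, fun j => le_rfl⟩
  have hw0 : ∀ j, 0 ≤ w j := by
    intro j
    by_contra hneg
    push Not at hneg
    set R : ℝ := (f (fun j => F j x₀) - u + 1) / (- w j) with hR
    have hge : u ≤ f (fun j => F j x₀) := hfC _ hb₀
    have hR0 : 0 ≤ R := div_nonneg (by linarith) (by linarith)
    have h1 : (fun j => F j x₀) + R • (Pi.single j (1 : ℝ) : J → ℝ) ∈ C := by
      refine ⟨x₀, hx₀, fun i => ?_⟩
      simp only [Pi.add_apply, Pi.smul_apply, smul_eq_mul]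
      have : 0 ≤ R * (Pi.single j (1 : ℝ) : J → ℝ) i := by
        refine mul_nonneg hR0 ?_
        by_cases hij : i = j
        · subst hij; simp
        · simp [Pi.single_eq_of_ne hij]
      linarith
    have h2 := hfC _ h1
    rw [map_add, map_smul, smul_eq_mul] at h2
    have h3 : R * f (Pi.single j 1) = -(f (fun j => F j x₀) - u + 1) := by
      rw [hR]
      have hwj : w j ≠ 0 := hneg.ne
      change (f (fun j => F j x₀) - u + 1) / (- w j) * w j = _
      field_simp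
    rw [h3] at h2
    linarith
  have hcst : ∀ s : ℝ, s < c + δ → s * ∑ j, w j < u := by
    intro s hs
    have h1 : (fun _ : J => s) ∈ B := fun j _ => hs
    have h2 := hfB _ h1
    rw [hfw] at h2
    rwa [← Finset.sum_mul, mul_comm] at h2
  have hsum0 : 0 ≤ ∑ j, w j := Finset.sum_nonneg fun j _ => hw0 j
  have hsum : 0 < ∑ j, w j := by
    rcases hsum0.eq_or_lt with h0 | h0
    · exfalso
      have hall : ∀ j, w j = 0 := by
        intro j
        exact (Finset.sum_eq_zero_iff_of_nonneg fun j _ => hw0 j).1 h0.symm j (Finset.mem_univ j)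
      have h1 := hcst (c + δ - 1) (by linarith)
      rw [← h0, mul_zero] at h1
      have h2 := hfC _ hb₀
      rw [hfw] at h2
      simp only [hall, zero_mul, Finset.sum_const_zero] at h2
      linarith
    · exact h0
  obtain ⟨x, hx, hxc⟩ := h (fun j => w j / ∑ j, w j) (fun j => div_nonneg (hw0 j) hsum0) (by
    rw [← Finset.sum_div, div_self hsum.ne'])
  have h1 : ∑ j, w j * F j x ≤ c * ∑ j, w j := by
    have h2 : ∑ j, w j / (∑ j, w j) * F j x = (∑ j, w j * F j x) / ∑ j, w j := by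
      rw [Finset.sum_div]
      exact Finset.sum_congr rfl fun j _ => by ring
    rw [h2, div_le_iff₀ hsum] at hxc
    exact hxc
  have h3 : u ≤ ∑ j, w j * F j x := by
    have := hfC (fun j => F j x) ⟨x, hx, fun j => le_rfl⟩
    rwa [hfw] at this
  have h4 := hcst (c + δ / 2) (by linarith)
  nlinarith

end

end Crest.Agent.R121.Fin
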