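import Crest.Agent.R121.Fin.LACore
import Crest.Agent.R121.Fin.KTrace
import Mathlib
import Crest.Agent.R121.Fin.MM

-- ▼ part R121/Fin/LAExp
section

/-!
# Row 121, block FIN, module LA, part 3: expectations, test vectors
-/

set_option autoImplicit false
set_option linter.unusedSectionVars false

namespace Crest.Agent.R121.Fin

open Finset Function Real
open scoped InnerProductSpace

section
variable {A : Type*} [CStarAlgebra A]
variable {H : Type*} [NormedAddCommGroup H] [InnerProductSpace ℂ H] [CompleteSpace H]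
variable {X : Type*} [Fintype X] {p : A} {n : ℕ} {e : Fin n → Fin n → A} {w : X → ℝ}
  {t : X → A} {neg : X → X} {S : A →L[ℂ] A}
variable (ϖ : A →⋆ₐ[ℂ] (H →L[ℂ] H))

/-- the increment of the martingale -/
noncomputable def Dl (S : A →L[ℂ] A) (t : X → A) (y : A) (x : X) : A :=
  S (y * t x) * star (t x) - S y

theorem Dl_neg (h : WD p e w t neg S) (y : A) (x : X) : Dl S t y (neg x) = Dl S t y x := by
  unfold Dl
  rw [h.htn, mul_neg, map_neg, star_neg, neg_mul_neg]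

theorem sum_Dl (h : WD p e w t neg S) (y : A) : ∑ x, (w x : ℂ) • Dl S t y x = 0 := by
  unfold Dl
  simp only [smul_sub, sum_sub_distrib]
  rw [h.harm, ← sum_smul]
  have : ∑ x, (w x : ℂ) = 1 := by exact_mod_cast h.hw1
  rw [this, one_smul, sub_self]

/-- the test vectors -/
noncomputable def vec (p : A) (e : Fin n → Fin n → A) (t : X → A) (i0 : Fin n) (ζ : H)
    (i : Fin n) (τ : ℕ → X) : H :=
  ϖ (star (wk t p τ i) * e i i0) ζ

noncomputable def Th (S : A →L[ℂ] A) (p : A) (e : Fin n → Fin n → A) (t : X → A) (y : A)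
    (i0 : Fin n) (ζ : H) (i : Fin n) (τ : ℕ → X) : H :=
  ϖ (Dl S t y (τ i)) (vec ϖ p e t i0 ζ i τ)

noncomputable def WN (S : A →L[ℂ] A) (p : A) (e : Fin n → Fin n → A) (t : X → A) (y : A)
    (i0 : Fin n) (ζ : H) (l : Fin n) (b : ℕ) (τ : ℕ → X) : H :=
  ϖ (S (y * (star (wk t p τ l) * wk t p τ b)) * star (wk t p τ b) * e l i0) ζ

theorem Th_flip (h : WD p e w t neg S) (y : A) (i0 : Fin n) (ζ : H) (i : Fin n) (k : ℕ)
    (τ : ℕ → X) : Th ϖ S p e t y i0 ζ i (update τ k (neg (τ k))) =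
      if k < i then - Th ϖ S p e t y i0 ζ i τ else Th ϖ S p e t y i0 ζ i τ := by
  unfold Th vec
  split_ifs with hk
  · rw [wk_neg h.htn _ hk, update_of_ne (by omega), star_neg, neg_mul, map_neg]
    simp
  · rw [wk_update _ (by omega)]
    by_cases hik : (i : ℕ) = k
    · rw [hik, update_self, Dl_neg h]
    · rw [update_of_ne hik]

theorem WN_flip (h : WD p e w t neg S) (y : A) (i0 : Fin n) (ζ : H) (l : Fin n) (b k : ℕ)
    (τ : ℕ → X) : WN ϖ S p e t y i0 ζ l b (update τ k (neg (τ k))) =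
      if k < l then - WN ϖ S p e t y i0 ζ l b τ else WN ϖ S p e t y i0 ζ l b τ := by
  have hb : ∀ z : A, S (z * wk t p (update τ k (neg (τ k))) b) *
      star (wk t p (update τ k (neg (τ k))) b) = S (z * wk t p τ b) * star (wk t p τ b) := by
    intro z
    by_cases hk : k < b
    · rw [wk_neg h.htn _ hk, star_neg, mul_neg z, map_neg, neg_mul_neg]
    · rw [wk_update _ (by omega)]
  unfold WN
  rw [← mul_assoc, hb]
  split_ifs with hk
  · rw [wk_neg h.htn _ hk, star_neg, mul_neg, neg_mul, map_neg, neg_mul, neg_mul, map_neg]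
    rw [mul_assoc y]
    simp
  · rw [wk_update _ (by omega), mul_assoc y]

theorem ex_Th_Th (h : WD p e w t neg S) (y : A) (i0 : Fin n) (ζ : H) {i l : Fin n} (hil : i ≠ l)
    (τ : ℕ → X) :
    ex w n (fun τ => (⟪Th ϖ S p e t y i0 ζ i τ, Th ϖ S p e t y i0 ζ l τ⟫_ℂ).re) τ = 0 := by
  have hil' : (i : ℕ) ≠ l := fun h => hil (Fin.ext h)
  refine ex_odd h.hw1 h.hn h.hwn (k := min i l) (by omega) (fun τ => ?_) τ
  rw [Th_flip ϖ h, Th_flip ϖ h]
  rcases lt_or_gt_of_ne hil' with h1 | h1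
  · rw [if_neg (by omega), if_pos (by omega), inner_neg_right]
    simp
  · rw [if_pos (by omega), if_neg (by omega), inner_neg_left]
    simp

theorem ex_WN_Th (h : WD p e w t neg S) (y : A) (i0 : Fin n) (ζ : H) {i l : Fin n} (hil : l ≠ i)
    (b : ℕ) (τ : ℕ → X) :
    ex w n (fun τ => (⟪WN ϖ S p e t y i0 ζ l b τ, Th ϖ S p e t y i0 ζ i τ⟫_ℂ).re) τ = 0 := by
  have hil' : (l : ℕ) ≠ i := fun h => hil (Fin.ext h)
  refine ex_odd h.hw1 h.hn h.hwn (k := min i l) (by omega) (fun τ => ?_) τ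
  rw [Th_flip ϖ h, WN_flip ϖ h]
  rcases lt_or_gt_of_ne hil' with h1 | h1
  · rw [if_neg (by omega), if_pos (by omega), inner_neg_right]
    simp
  · rw [if_pos (by omega), if_neg (by omega), inner_neg_left]
    simp

/-- averages of inner products over one coordinate -/
theorem avg_inner_left (k : ℕ) (F : (ℕ → X) → H) (G : (ℕ → X) → H) (τ : ℕ → X)
    (hG : ∀ x, G (update τ k x) = G τ) :
    avg w k (fun τ => (⟪F τ, G τ⟫_ℂ).re) τ =
      (⟪∑ x, (w x : ℂ) • F (update τ k x), G τ⟫_ℂ).re := by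
  unfold avg
  rw [sum_inner, Complex.re_sum]
  refine sum_congr rfl fun x _ => ?_
  simp only []
  rw [hG, inner_smul_left, Complex.conj_ofReal, Complex.re_ofReal_mul]

theorem avg_inner_right (k : ℕ) (F : (ℕ → X) → H) (G : (ℕ → X) → H) (τ : ℕ → X)
    (hF : ∀ x, F (update τ k x) = F τ) :
    avg w k (fun τ => (⟪F τ, G τ⟫_ℂ).re) τ =
      (⟪F τ, ∑ x, (w x : ℂ) • G (update τ k x)⟫_ℂ).re := by
  unfold avg
  rw [inner_sum, Complex.re_sum]
  refine sum_congr rfl fun x _ => ?_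
  simp only []
  rw [hF, inner_smul_right, Complex.re_ofReal_mul]

theorem vec_update (i0 : Fin n) (ζ : H) (i : Fin n) (x : X) (τ : ℕ → X) :
    vec ϖ p e t i0 ζ i (update τ i x) = vec ϖ p e t i0 ζ i τ := by
  unfold vec
  rw [wk_update _ le_rfl]

theorem sum_Th_update (h : WD p e w t neg S) (y : A) (i0 : Fin n) (ζ : H) (i : Fin n)
    (τ : ℕ → X) :
    ∑ x, (w x : ℂ) • Th ϖ S p e t y i0 ζ i (update τ i x) = 0 := by
  unfold Th
  have : ∀ x, (w x : ℂ) • ϖ (Dl S t y (update τ (i : ℕ) x i)) (vec ϖ p e t i0 ζ i (update τ i x)) =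
      ϖ ((w x : ℂ) • Dl S t y x) (vec ϖ p e t i0 ζ i τ) := by
    intro x
    rw [update_self, vec_update, map_smul]
    rfl
  rw [sum_congr rfl fun x _ => this x, ← _root_.sum_apply, ← map_sum, sum_Dl h]
  simp

theorem ex_indep_Th (h : WD p e w t neg S) (y : A) (i0 : Fin n) (ζ : H) (i : Fin n)
    (F : (ℕ → X) → H) (hF : ∀ τ x, F (update τ (i : ℕ) x) = F τ) (τ : ℕ → X) :
    ex w n (fun τ => (⟪F τ, Th ϖ S p e t y i0 ζ i τ⟫_ℂ).re) τ = 0 := by
  refine ex_eq_zero h.hw1 (k := i) i.isLt (fun τ => ?_) τ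
  rw [avg_inner_right _ _ _ _ (hF τ), sum_Th_update ϖ h]
  simp

theorem ex_WN_Th_lt (h : WD p e w t neg S) (y : A) (i0 : Fin n) (ζ : H) (i : Fin n) {b : ℕ}
    (hb : b < i) (τ : ℕ → X) :
    ex w n (fun τ => (⟪WN ϖ S p e t y i0 ζ i b τ, Th ϖ S p e t y i0 ζ i τ⟫_ℂ).re) τ = 0 := by
  apply ex_indep_Th ϖ h
  intro τ x
  unfold WN
  rw [wk_update _ le_rfl, wk_update _ (by omega)]

theorem ex_WN_Th_gt (h : WD p e w t neg S) (y : A) (i0 : Fin n) (ζ : H) (i : Fin n) (b : ℕ)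
    (hb : (i : ℕ) < b) (hbn : b ≤ n) (τ : ℕ → X) :
    ex w n (fun τ => (⟪WN ϖ S p e t y i0 ζ i b τ, Th ϖ S p e t y i0 ζ i τ⟫_ℂ).re) τ =
      ex w n (fun τ => ‖Th ϖ S p e t y i0 ζ i τ‖ ^ 2) τ := by
  have hp := h.mu.star_p
  have hpp := h.mu.p_p
  induction b, hb using Nat.le_induction with
  | base =>
    have h1 : ∀ τ : ℕ → X, (⟪WN ϖ S p e t y i0 ζ i ((i : ℕ) + 1) τ,
        Th ϖ S p e t y i0 ζ i τ⟫_ℂ).re = ‖Th ϖ S p e t y i0 ζ i τ‖ ^ 2 +
        (⟪ϖ (S y) (vec ϖ p e t i0 ζ i τ), Th ϖ S p e t y i0 ζ i τ⟫_ℂ).re := by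
      intro τ
      have h2 : WN ϖ S p e t y i0 ζ i ((i : ℕ) + 1) τ =
          Th ϖ S p e t y i0 ζ i τ + ϖ (S y) (vec ϖ p e t i0 ζ i τ) := by
        unfold WN Th vec
        rw [wk, ← mul_assoc (star _), (wk_CU hp hpp h.ht τ i).st_mul, (h.ht _).left,
          ← mul_apply_eq_comp, ← mul_apply_eq_comp, ← map_mul, ← map_mul,
          ← _root_.add_apply, ← map_add, Dl, star_mul]
        congr 2
        noncomm_ring
      rw [h2, inner_add_left, Complex.add_re]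
      congr 1
      exact (inner_self_eq_norm_sq (𝕜 := ℂ) _)
    simp only [h1]
    rw [ex_add]
    simp only
    rw [ex_indep_Th ϖ h y i0 ζ i (fun τ => ϖ (S y) (vec ϖ p e t i0 ζ i τ)), add_zero]
    intro τ x
    simp only [vec_update]
  | succ b hb ih =>
    rw [← ih (by omega)]
    refine ex_congr h.hw1 (k := b) (by omega) (fun τ => ?_) τ
    have hG : ∀ x, Th ϖ S p e t y i0 ζ i (update τ b x) = Th ϖ S p e t y i0 ζ i τ := by
      intro x
      unfold Th vec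
      rw [wk_update _ (by omega), update_of_ne (by omega)]
    rw [avg_inner_left _ _ _ _ hG, avg_inner_left _ _ _ _ hG]
    congr 2
    have h3 : ∀ x, WN ϖ S p e t y i0 ζ i b (update τ b x) = WN ϖ S p e t y i0 ζ i b τ := by
      intro x
      unfold WN
      rw [wk_update _ (by omega), wk_update _ le_rfl]
    simp only [h3]
    rw [← sum_smul]
    have hw1 : ∑ x, (w x : ℂ) = 1 := by exact_mod_cast h.hw1
    rw [hw1, one_smul]
    have h4 : ∀ x, (w x : ℂ) • WN ϖ S p e t y i0 ζ i (b + 1) (update τ b x) =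
        ϖ (((w x : ℂ) • (S (y * (star (wk t p τ i) * wk t p τ b) * t x) * star (t x))) *
          star (wk t p τ b) * e i i0) ζ := by
      intro x
      unfold WN
      rw [wk_update_succ, wk_update _ (by omega : (i : ℕ) ≤ b), star_mul, smul_mul_assoc,
        smul_mul_assoc, map_smul, _root_.smul_apply]
      congr 3
      noncomm_ring
    rw [sum_congr rfl fun x _ => h4 x, ← _root_.sum_apply, ← map_sum, ← sum_mul, ← sum_mul,
      h.harm]
    rfl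

end

end Crest.Agent.R121.Fin
end

-- ▼ part R121/Fin/LAIneq
section

/-!
# Row 121, block FIN, module LA, part 4: the core inequality
-/

set_option autoImplicit false
set_option linter.unusedSectionVars false

namespace Crest.Agent.R121.Fin

open Finset Function Real
open scoped InnerProductSpace

section
variable {A : Type*} [CStarAlgebra A]
variable {H : Type*} [NormedAddCommGroup H] [InnerProductSpace ℂ H] [CompleteSpace H]
variable {X : Type*} [Fintype X] {p : A} {w : X → ℝ}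
  {t : X → A} {neg : X → X} {S : A →L[ℂ] A}
variable (ϖ : A →⋆ₐ[ℂ] (H →L[ℂ] H))

/-- harmonic number -/
noncomputable def Hn (m : ℕ) : ℝ := ∑ k ∈ range m, 1 / ((k : ℝ) + 1)

theorem Hn_pos {m : ℕ} (hm : 0 < m) : 0 < Hn m := by
  unfold Hn
  exact sum_pos (fun k _ => by positivity) ⟨0, by simpa using hm⟩

theorem hsum {m : ℕ} {i : Fin (2 * m)} (hi : (i : ℕ) < m) :
    Hn m ≤ ∑ j : Fin (2 * m), if (i : ℕ) < j then (((j : ℕ) : ℝ) - ((i : ℕ) : ℝ))⁻¹ else 0 := by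
  set f : ℕ → ℝ := fun j => if (i : ℕ) < j then ((j : ℝ) - ((i : ℕ) : ℝ))⁻¹ else 0 with hf
  have h1 : ∑ j : Fin (2 * m), (if (i : ℕ) < j then (((j : ℕ) : ℝ) - ((i : ℕ) : ℝ))⁻¹ else 0) =
      ∑ j ∈ range (2 * m), f j := by
    rw [Finset.sum_range]
  rw [h1]
  have h2 : Hn m = ∑ j ∈ (range m).image (fun k => (i : ℕ) + 1 + k), f j := by
    rw [sum_image]
    · unfold Hn
      refine sum_congr rfl fun k _ => ?_
      simp only [hf]
      rw [if_pos (by omega)]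
      push_cast
      rw [one_div]
      congr 1
      ring
    · intro a _ b _ hab
      simp only at hab
      omega
  rw [h2]
  apply sum_le_sum_of_subset_of_nonneg
  · intro j hj
    simp only [mem_image, mem_range] at hj ⊢
    obtain ⟨k, hk, rfl⟩ := hj
    omega
  · intro j _ _
    simp only [hf]
    split_ifs with hij
    · have : ((i : ℕ) : ℝ) < (j : ℝ) := by exact_mod_cast hij
      exact inv_nonneg.2 (by linarith)
    · exact le_rfl

theorem re_inner_sums {n : ℕ} (W : Fin n → Fin n → H) (s : Finset (Fin n)) (T : Fin n → H) :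
    (⟪∑ l : Fin n, ∑ j : Fin n, ((((j : ℕ) : ℂ) - ((l : ℕ) : ℂ))⁻¹) • W l j,
      ∑ i ∈ s, T i⟫_ℂ).re = ∑ i ∈ s, ∑ l : Fin n, ∑ j : Fin n,
        ((((j : ℕ) : ℝ) - ((l : ℕ) : ℝ))⁻¹) * (⟪W l j, T i⟫_ℂ).re := by
  rw [inner_sum, Complex.re_sum]
  refine sum_congr rfl fun i _ => ?_
  rw [sum_inner, Complex.re_sum]
  refine sum_congr rfl fun l _ => ?_
  rw [sum_inner, Complex.re_sum]
  refine sum_congr rfl fun j _ => ?_
  have : ((((j : ℕ) : ℂ) - ((l : ℕ) : ℂ))⁻¹) = (((((j : ℕ) : ℝ) - ((l : ℕ) : ℝ))⁻¹ : ℝ) : ℂ) := by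
    push_cast
    rfl
  rw [this, inner_smul_left, Complex.conj_ofReal, Complex.re_ofReal_mul]

theorem two_re_inner_le (x y : H) {s : ℝ} (hs : 0 < s) :
    2 * (⟪x, y⟫_ℂ).re ≤ s * ‖x‖ ^ 2 + s⁻¹ * ‖y‖ ^ 2 := by
  have h1 : (⟪x, y⟫_ℂ).re ≤ ‖x‖ * ‖y‖ := (Complex.re_le_norm _).trans (norm_inner_le_norm x y)
  have h2 : 2 * (‖x‖ * ‖y‖) ≤ s * ‖x‖ ^ 2 + s⁻¹ * ‖y‖ ^ 2 := by
    have h3 : 0 ≤ s⁻¹ * (s * ‖x‖ - ‖y‖) ^ 2 := by positivity
    have h4 : s⁻¹ * (s * ‖x‖ - ‖y‖) ^ 2 = s * ‖x‖ ^ 2 + s⁻¹ * ‖y‖ ^ 2 - 2 * (‖x‖ * ‖y‖) := by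
      field_simp
      ring
    linarith
  linarith

/-- **core inequality** -/
theorem LA_ineq (hϖ : ∀ x, ‖ϖ x‖ = ‖x‖) {m : ℕ} (hm : 0 < m)
    {e : Fin (2 * m) → Fin (2 * m) → A} (h : WD p e w t neg S) (y : A) (i0 : Fin (2 * m)) (ζ : H)
    (τ : ℕ → X) :
    Hn m ^ 2 * ∑ i ∈ univ.filter (fun i : Fin (2 * m) => (i : ℕ) < m),
        ex w (2 * m) (fun τ => ‖Th ϖ S p e t y i0 ζ i τ‖ ^ 2) τ ≤
      (‖S‖ * (‖y‖ * π)) ^ 2 * ((2 * m : ℕ) * ‖ϖ (e i0 i0) ζ‖ ^ 2) := by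
  classical
  set s : Finset (Fin (2 * m)) := univ.filter (fun i : Fin (2 * m) => (i : ℕ) < m) with hs
  set Q : Fin (2 * m) → ℝ := fun i => ex w (2 * m) (fun τ => ‖Th ϖ S p e t y i0 ζ i τ‖ ^ 2) τ
    with hQ
  set Z : (ℕ → X) → H := fun τ => ∑ l : Fin (2 * m), ∑ j : Fin (2 * m),
    ((((j : ℕ) : ℂ) - ((l : ℕ) : ℂ))⁻¹) • WW ϖ S p e t y i0 ζ l j τ with hZ
  set T : (ℕ → X) → H := fun τ => ∑ i ∈ s, Th ϖ S p e t y i0 ζ i τ with hT
  have hQ0 : ∀ i, 0 ≤ Q i := by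
    intro i
    have := ex_mono h.hw (2 * m) (F := fun _ => 0)
      (G := fun τ => ‖Th ϖ S p e t y i0 ζ i τ‖ ^ 2) (fun τ => by positivity) τ
    rwa [ex_zero] at this
  have hH := Hn_pos hm
  -- expectation of the pairing
  have key1 : ex w (2 * m) (fun τ => (⟪Z τ, T τ⟫_ℂ).re) τ =
      ∑ i ∈ s, (∑ j : Fin (2 * m), if (i : ℕ) < j then (((j : ℕ) : ℝ) - ((i : ℕ) : ℝ))⁻¹ else 0)
        * Q i := by
    have e1 : (fun τ => (⟪Z τ, T τ⟫_ℂ).re) = fun τ => ∑ i ∈ s, ∑ l : Fin (2 * m),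
        ∑ j : Fin (2 * m), ((((j : ℕ) : ℝ) - ((l : ℕ) : ℝ))⁻¹) *
          (⟪WW ϖ S p e t y i0 ζ l j τ, Th ϖ S p e t y i0 ζ i τ⟫_ℂ).re := by
      ext τ
      exact re_inner_sums _ s _
    rw [e1, ex_sum]
    refine sum_congr rfl fun i _ => ?_
    rw [ex_sum, sum_eq_single i]
    · rw [ex_sum, sum_mul]
      refine sum_congr rfl fun j _ => ?_
      rw [ex_const_mul]
      simp only
      rcases lt_trichotomy (i : ℕ) (j : ℕ) with hij | hij | hij
      · rw [if_pos hij]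
        congr 1
        exact ex_WN_Th_gt ϖ h y i0 ζ i j hij (le_of_lt j.isLt) τ
      · rw [if_neg (by omega), hij]
        simp
      · rw [if_neg (by omega), zero_mul]
        have := ex_WN_Th_lt ϖ h y i0 ζ i (b := j) hij τ
        unfold WN at this
        unfold WW
        rw [this, mul_zero]
    · intro l _ hl
      rw [ex_sum]
      refine sum_eq_zero fun j _ => ?_
      rw [ex_const_mul]
      simp only
      have := ex_WN_Th ϖ h y i0 ζ hl j τ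
      unfold WN at this
      unfold WW
      rw [this, mul_zero]
    · intro hi
      exact absurd (mem_univ i) hi
  have key2 : ex w (2 * m) (fun τ => ‖T τ‖ ^ 2) τ = ∑ i ∈ s, Q i := by
    have e1 : (fun τ => ‖T τ‖ ^ 2) = fun τ => ∑ i ∈ s, ∑ l ∈ s,
        (⟪Th ϖ S p e t y i0 ζ i τ, Th ϖ S p e t y i0 ζ l τ⟫_ℂ).re := by
      ext τ
      rw [← inner_self_eq_norm_sq (𝕜 := ℂ)]
      change (⟪T τ, T τ⟫_ℂ).re = _
      simp only [hT]
      rw [sum_inner, Complex.re_sum]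
      refine sum_congr rfl fun i _ => ?_
      rw [inner_sum, Complex.re_sum]
    rw [e1, ex_sum]
    refine sum_congr rfl fun i hi => ?_
    rw [ex_sum, sum_eq_single i]
    · simp only [hQ]
      congr 1
      ext τ
      exact inner_self_eq_norm_sq (𝕜 := ℂ) _
    · intro l _ hl
      exact ex_Th_Th ϖ h y i0 ζ (Ne.symm hl) τ
    · intro hi'
      exact absurd hi hi'
  have key3 : ex w (2 * m) (fun τ => ‖Z τ‖ ^ 2) τ ≤
      (‖S‖ * (‖y‖ * π)) ^ 2 * ((2 * m : ℕ) * ‖ϖ (e i0 i0) ζ‖ ^ 2) := by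
    have := ex_mono h.hw (2 * m) (F := fun τ => ‖Z τ‖ ^ 2)
      (G := fun _ => (‖S‖ * (‖y‖ * π)) ^ 2 * ((2 * m : ℕ) * ‖ϖ (e i0 i0) ζ‖ ^ 2))
      (fun τ => norm_sum_WW ϖ hϖ h τ i0 y ζ) τ
    rwa [ex_const h.hw1] at this
  have key4 : 2 * ex w (2 * m) (fun τ => (⟪Z τ, T τ⟫_ℂ).re) τ ≤
      (Hn m)⁻¹ * ex w (2 * m) (fun τ => ‖Z τ‖ ^ 2) τ +
        Hn m * ex w (2 * m) (fun τ => ‖T τ‖ ^ 2) τ := by
    have := ex_mono h.hw (2 * m) (F := fun τ => 2 * (⟪Z τ, T τ⟫_ℂ).re)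
      (G := fun τ => (Hn m)⁻¹ * ‖Z τ‖ ^ 2 + Hn m * ‖T τ‖ ^ 2)
      (fun τ => by
        have := two_re_inner_le (Z τ) (T τ) (inv_pos.2 hH)
        rwa [inv_inv] at this) τ
    rw [ex_const_mul, ex_add, ex_const_mul, ex_const_mul] at this
    exact this
  have key5 : Hn m * ∑ i ∈ s, Q i ≤ ex w (2 * m) (fun τ => (⟪Z τ, T τ⟫_ℂ).re) τ := by
    rw [key1, mul_sum]
    refine sum_le_sum fun i hi => ?_
    refine mul_le_mul_of_nonneg_right (hsum ?_) (hQ0 i)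
    simpa [hs] using hi
  rw [key2] at key4
  set B := (‖S‖ * (‖y‖ * π)) ^ 2 * ((2 * m : ℕ) * ‖ϖ (e i0 i0) ζ‖ ^ 2) with hB
  have h6 : 2 * (Hn m * ∑ i ∈ s, Q i) ≤ (Hn m)⁻¹ * B + Hn m * ∑ i ∈ s, Q i := by
    have : (Hn m)⁻¹ * ex w (2 * m) (fun τ => ‖Z τ‖ ^ 2) τ ≤ (Hn m)⁻¹ * B :=
      mul_le_mul_of_nonneg_left key3 (inv_nonneg.2 hH.le)
    linarith
  have h7 : Hn m * ∑ i ∈ s, Q i ≤ (Hn m)⁻¹ * B := by linarith
  calc Hn m ^ 2 * ∑ i ∈ s, Q i = Hn m * (Hn m * ∑ i ∈ s, Q i) := by ring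
    _ ≤ Hn m * ((Hn m)⁻¹ * B) := mul_le_mul_of_nonneg_left h7 hH.le
    _ = B := by rw [← mul_assoc, mul_inv_cancel₀ hH.ne', one_mul]

end

end Crest.Agent.R121.Fin
end

-- ▼ part R121/Fin/LA
section

/-!
# Row 121, block FIN, module LA: almost invariance of harmonic maps in a `K`-tracial corner
-/

set_option autoImplicit false
set_option linter.unusedSectionVars false

namespace Crest.Agent.R121.Fin

open Finset Function Real
open scoped InnerProductSpace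

section
variable {A : Type*} [CStarAlgebra A]
variable {H : Type*} [NormedAddCommGroup H] [InnerProductSpace ℂ H] [CompleteSpace H]
variable {X : Type*} [Fintype X] {p : A} {w : X → ℝ}
  {t : X → A} {neg : X → X} {S : A →L[ℂ] A}
variable {ϖ : A →⋆ₐ[ℂ] (H →L[ℂ] H)} {ξ : H} {K : ℝ}

theorem Dl_mul_p {n : ℕ} {e : Fin n → Fin n → A} (h : WD p e w t neg S) (y : A) (x : X) :
    Dl S t y x * p = Dl S t y x := by
  have hp := h.mu.star_p
  have h1 : S y * p = S y := by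
    rw [← h.harm y, sum_mul]
    refine sum_congr rfl fun x _ => ?_
    rw [smul_mul_assoc, mul_assoc, (h.ht x).right' hp]
  unfold Dl
  rw [sub_mul, h1, mul_assoc, (h.ht x).right' hp]

theorem MU.sum_norm_sq {n : ℕ} {e : Fin n → Fin n → A} (he : MU p n e) (v : H) :
    ∑ k, ‖ϖ (e k k) v‖ ^ 2 = ‖ϖ p v‖ ^ 2 := by
  rw [← norm_sq_sum univ (fun k => ϖ (e k k) v)]
  · rw [← _root_.sum_apply, ← map_sum, he.sum]
  · intro l _ k _ hlk
    rw [inner_rep_left, ← mul_apply_eq_comp, ← map_mul, he.st, he.mul, if_neg hlk]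
    simp

theorem LA_half (hϖ : ∀ x, ‖ϖ x‖ = ‖x‖) (hc : Cor ϖ p ξ K) {m : ℕ} (hm : 0 < m)
    {e : Fin (2 * m) → Fin (2 * m) → A} (h : WD p e w t neg S) (y : A)
    (g : X → A) (hg1 : ∀ x, star (g x) = g x) (hg2 : ∀ x, g x * g x = star (Dl S t y x) *
      Dl S t y x) (hg4 : ∀ x, g x * p = g x) :
    Hn m ^ 2 * ∑ i ∈ univ.filter (fun i : Fin (2 * m) => (i : ℕ) < m),
        ∑ x, w x * ‖ϖ (e i i * g x) ξ‖ ^ 2 ≤ K * (‖S‖ * (‖y‖ * π)) ^ 2 * ‖ξ‖ ^ 2 := by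
  classical
  have hp := h.mu.star_p
  have hpp := h.mu.p_p
  set s : Finset (Fin (2 * m)) := univ.filter (fun i : Fin (2 * m) => (i : ℕ) < m) with hs
  have hX : Nonempty X := by
    by_contra hne
    rw [not_nonempty_iff] at hne
    have := h.hw1
    simp at this
  obtain ⟨x0⟩ := hX
  set τ0 : ℕ → X := fun _ => x0
  have i0 : Fin (2 * m) := ⟨0, by omega⟩
  have step1 : ∀ (i : Fin (2 * m)) (τ : ℕ → X), ((2 * m : ℕ) : ℝ) * ‖ϖ (e i i * g (τ i)) ξ‖ ^ 2 ≤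
      K * ∑ k, ‖Th ϖ S p e t y i0 (ϖ (e i0 k) ξ) i τ‖ ^ 2 := by
    intro i τ
    have hu : CU p (wk t p τ i) := wk_CU hp hpp h.ht τ i
    have hcomm := wk_comm h.mu h.htc τ i
    have a1 : ∀ k, ‖ϖ (e k i * wk t p τ i * g (τ i)) ξ‖ ^ 2 = ‖ϖ (e i i * g (τ i)) ξ‖ ^ 2 := by
      intro k
      congr 1
      apply norm_rep_eq
      have b1 : star (e k i * wk t p τ i * g (τ i)) * (e k i * wk t p τ i * g (τ i)) =
          star (g (τ i)) * (star (wk t p τ i) * (star (e k i) * e k i) * wk t p τ i) *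
            g (τ i) := by
        simp only [star_mul]
        noncomm_ring
      have b2 : star (wk t p τ i) * (star (e k i) * e k i) * wk t p τ i = e i i := by
        rw [h.mu.st, h.mu.mul, if_pos rfl, mul_assoc, ← hcomm, ← mul_assoc, hu.st_mul, h.mu.left]
      have b3 : e i i * (e i i * g (τ i)) = e i i * g (τ i) := by
        rw [← mul_assoc, h.mu.mul, if_pos rfl]
      rw [b1, b2, star_mul, h.mu.st, mul_assoc (star _) (e i i) (e i i * _), b3, mul_assoc]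
    have a2 : ∀ k, ‖ϖ (e k i * wk t p τ i * g (τ i)) ξ‖ ^ 2 ≤
        K * ‖Th ϖ S p e t y i0 (ϖ (e i0 k) ξ) i τ‖ ^ 2 := by
      intro k
      have b1 := hc.hK (e k i * wk t p τ i * g (τ i))
        (by rw [← mul_assoc, ← mul_assoc, h.mu.left]) (by rw [mul_assoc, hg4])
      refine b1.trans (mul_le_mul_of_nonneg_left (le_of_eq ?_) hc.K0)
      congr 1
      have b2 : Th ϖ S p e t y i0 (ϖ (e i0 k) ξ) i τ =
          ϖ (Dl S t y (τ i) * (star (wk t p τ i) * e i k)) ξ := by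
        unfold Th vec
        rw [← mul_apply_eq_comp, ← mul_apply_eq_comp, ← map_mul, ← map_mul]
        congr 2
        rw [mul_assoc, mul_assoc (star _), h.mu.mul, if_pos rfl]
      rw [b2]
      apply norm_rep_eq
      simp only [star_star, star_mul, h.mu.st, hg1]
      have b3 : e k i * wk t p τ i * g (τ i) * (g (τ i) * (star (wk t p τ i) * e i k)) =
          e k i * wk t p τ i * (g (τ i) * g (τ i)) * (star (wk t p τ i) * e i k) := by
        noncomm_ring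
      rw [b3, hg2]
      noncomm_ring
    calc ((2 * m : ℕ) : ℝ) * ‖ϖ (e i i * g (τ i)) ξ‖ ^ 2
        = ∑ k : Fin (2 * m), ‖ϖ (e k i * wk t p τ i * g (τ i)) ξ‖ ^ 2 := by
          rw [sum_congr rfl fun k _ => a1 k, sum_const, card_univ, Fintype.card_fin, nsmul_eq_mul]
      _ ≤ ∑ k, K * ‖Th ϖ S p e t y i0 (ϖ (e i0 k) ξ) i τ‖ ^ 2 := sum_le_sum fun k _ => a2 k
      _ = _ := by rw [mul_sum]
  have step2 : ∀ i : Fin (2 * m), ((2 * m : ℕ) : ℝ) * ∑ x, w x * ‖ϖ (e i i * g x) ξ‖ ^ 2 ≤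
      K * ∑ k, ex w (2 * m) (fun τ => ‖Th ϖ S p e t y i0 (ϖ (e i0 k) ξ) i τ‖ ^ 2) τ0 := by
    intro i
    have h1 := ex_mono h.hw (2 * m) (step1 i) τ0
    rw [ex_const_mul, ex_const_mul] at h1
    beta_reduce at h1
    rw [ex_sum] at h1
    rwa [ex_coord h.hw1 i.isLt (fun x => ‖ϖ (e i i * g x) ξ‖ ^ 2)] at h1
  have hB : ∀ k, Hn m ^ 2 * ∑ i ∈ s,
      ex w (2 * m) (fun τ => ‖Th ϖ S p e t y i0 (ϖ (e i0 k) ξ) i τ‖ ^ 2) τ0 ≤
      (‖S‖ * (‖y‖ * π)) ^ 2 * ((2 * m : ℕ) * ‖ϖ (e k k) ξ‖ ^ 2) := by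
    intro k
    refine (LA_ineq ϖ hϖ hm h y i0 (ϖ (e i0 k) ξ) τ0).trans (le_of_eq ?_)
    congr 3
    rw [← mul_apply_eq_comp, ← map_mul, h.mu.mul, if_pos rfl]
    apply norm_rep_eq
    rw [h.mu.st, h.mu.mul, if_pos rfl, h.mu.st, h.mu.mul, if_pos rfl]
  have hn : (0 : ℝ) < ((2 * m : ℕ) : ℝ) := by
    have : 0 < 2 * m := by omega
    exact_mod_cast this
  have hfin : ((2 * m : ℕ) : ℝ) * (Hn m ^ 2 * ∑ i ∈ s, ∑ x, w x * ‖ϖ (e i i * g x) ξ‖ ^ 2) ≤
      ((2 * m : ℕ) : ℝ) * (K * (‖S‖ * (‖y‖ * π)) ^ 2 * ‖ξ‖ ^ 2) := by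
    calc ((2 * m : ℕ) : ℝ) * (Hn m ^ 2 * ∑ i ∈ s, ∑ x, w x * ‖ϖ (e i i * g x) ξ‖ ^ 2)
        = Hn m ^ 2 * ∑ i ∈ s, ((2 * m : ℕ) : ℝ) * ∑ x, w x * ‖ϖ (e i i * g x) ξ‖ ^ 2 := by
          rw [← mul_sum]; ring
      _ ≤ Hn m ^ 2 * ∑ i ∈ s, K * ∑ k,
            ex w (2 * m) (fun τ => ‖Th ϖ S p e t y i0 (ϖ (e i0 k) ξ) i τ‖ ^ 2) τ0 := by
          exact mul_le_mul_of_nonneg_left (sum_le_sum fun i _ => step2 i) (by positivity)
      _ = K * ∑ k, Hn m ^ 2 * ∑ i ∈ s,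
            ex w (2 * m) (fun τ => ‖Th ϖ S p e t y i0 (ϖ (e i0 k) ξ) i τ‖ ^ 2) τ0 := by
          rw [← mul_sum, sum_comm, ← mul_sum]; ring
      _ ≤ K * ∑ k, (‖S‖ * (‖y‖ * π)) ^ 2 * ((2 * m : ℕ) * ‖ϖ (e k k) ξ‖ ^ 2) :=
          mul_le_mul_of_nonneg_left (sum_le_sum fun k _ => hB k) hc.K0
      _ = ((2 * m : ℕ) : ℝ) * (K * (‖S‖ * (‖y‖ * π)) ^ 2 * ∑ k, ‖ϖ (e k k) ξ‖ ^ 2) := by
          simp only [mul_sum]
          refine sum_congr rfl fun k _ => ?_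
          ring
      _ = _ := by rw [h.mu.sum_norm_sq, hc.p_ξ]
  exact le_of_mul_le_mul_left hfin hn

theorem LA_signed (hϖ : ∀ x, ‖ϖ x‖ = ‖x‖) (hc : Cor ϖ p ξ K) {m : ℕ} (hm : 0 < m)
    {e : Fin (2 * m) → Fin (2 * m) → A} (h : WD p e w t neg S) (y : A) :
    Hn m ^ 2 * ∑ x, w x * ‖ϖ (Dl S t y x) ξ‖ ^ 2 ≤
      2 * (K * (‖S‖ * (‖y‖ * π)) ^ 2 * ‖ξ‖ ^ 2) := by
  classical
  have hp := h.mu.star_p
  have hpp := h.mu.p_p
  choose g hg1 hg2 hg3 hg4 using fun x => exists_abs hp hpp (Dl_mul_p h y x)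
  set σ : Fin (2 * m) ≃ Fin (2 * m) := Fin.revPerm with hσ
  have h' : WD p (fun i j => e (σ i) (σ j)) w t neg S :=
    { mu := h.mu.reindex σ
      hw := h.hw
      hw1 := h.hw1
      hn := h.hn
      hwn := h.hwn
      htn := h.htn
      ht := h.ht
      htc := fun x i j => h.htc x _ _
      harm := h.harm
      rmod := fun x i j => h.rmod x _ _ }
  have h1 := LA_half hϖ hc hm h y g hg1 hg2 hg4
  have h2 := LA_half hϖ hc hm h' y g hg1 hg2 hg4
  have h3 : ∑ i ∈ univ.filter (fun i : Fin (2 * m) => (i : ℕ) < m),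
        ∑ x, w x * ‖ϖ (e (σ i) (σ i) * g x) ξ‖ ^ 2 =
      ∑ i ∈ univ.filter (fun i : Fin (2 * m) => ¬ (i : ℕ) < m),
        ∑ x, w x * ‖ϖ (e i i * g x) ξ‖ ^ 2 := by
    refine Finset.sum_equiv σ (fun i => ?_) (fun i _ => rfl)
    simp only [mem_filter, mem_univ, true_and, not_lt, hσ, Fin.revPerm_apply, Fin.val_rev]
    omega
  rw [h3] at h2
  have h4 : ∑ x, w x * ‖ϖ (Dl S t y x) ξ‖ ^ 2 =
      (∑ i ∈ univ.filter (fun i : Fin (2 * m) => (i : ℕ) < m),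
        ∑ x, w x * ‖ϖ (e i i * g x) ξ‖ ^ 2) +
      ∑ i ∈ univ.filter (fun i : Fin (2 * m) => ¬ (i : ℕ) < m),
        ∑ x, w x * ‖ϖ (e i i * g x) ξ‖ ^ 2 := by
    rw [sum_filter_add_sum_filter_not, sum_comm]
    refine sum_congr rfl fun x _ => ?_
    rw [← mul_sum]
    congr 1
    have e1 : ∀ i, ‖ϖ (e i i * g x) ξ‖ ^ 2 = ‖ϖ (e i i) (ϖ (g x) ξ)‖ ^ 2 := by
      intro i
      rw [map_mul, mul_apply_eq_comp]
    rw [sum_congr rfl fun i _ => e1 i, h.mu.sum_norm_sq, ← mul_apply_eq_comp, ← map_mul, hg3]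
    congr 1
    apply norm_rep_eq
    rw [hg1, hg2]
  rw [h4, mul_add]
  linarith

/-- **LA**. Harmonic right modular maps in a `K`-tracial corner are almost invariant. -/
theorem LA (hϖ : ∀ x, ‖ϖ x‖ = ‖x‖) (hc : Cor ϖ p ξ K) {m : ℕ} (hm : 0 < m)
    {e : Fin (2 * m) → Fin (2 * m) → A} (he : MU p (2 * m) e) (hS : RMod e S)
    {Ω : Type*} [Fintype Ω] (w : Ω → ℝ) (hw : ∀ ω, 0 ≤ w ω) (hw1 : ∑ ω, w ω = 1)
    (t : Ω → A) (ht : ∀ ω, CU p (t ω)) (htc : ∀ ω i j, t ω * e i j = e i j * t ω)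
    (harm : ∀ y, ∑ ω, (w ω : ℂ) • (S (y * t ω) * star (t ω)) = S y) (y : A) :
    ∑ ω, w ω * ‖ϖ (S (y * t ω) * star (t ω) - S y) ξ‖ ^ 2 ≤
      2 * K * π ^ 2 * ‖S‖ ^ 2 * ‖y‖ ^ 2 * ‖ξ‖ ^ 2 / (∑ k ∈ range m, 1 / ((k : ℝ) + 1)) ^ 2 := by
  set w' : Ω × Bool → ℝ := fun x => w x.1 / 2 with hw'
  set t' : Ω × Bool → A := fun x => if x.2 then t x.1 else - t x.1 with ht'
  set neg : Ω × Bool → Ω × Bool := fun x => (x.1, !x.2) with hneg
  have hd : WD p e w' t' neg S :=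
    { mu := he
      hw := fun x => by simp only [hw']; have := hw x.1; positivity
      hw1 := by
        rw [Fintype.sum_prod_type]
        simp only [hw', Fintype.sum_bool]
        rw [← hw1]
        exact sum_congr rfl fun x _ => by ring
      hn := fun x => by simp [hneg]
      hwn := fun x => rfl
      htn := fun x => by
        rcases x with ⟨x, b⟩
        cases b <;> simp [hneg, ht']
      ht := fun x => by
        rcases x with ⟨x, b⟩
        cases b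
        · simpa [ht'] using (ht x).neg'
        · simpa [ht'] using ht x
      htc := fun x i j => by
        rcases x with ⟨x, b⟩
        cases b
        · simp [ht', htc]
        · simp [ht', htc]
      harm := fun y => by
        rw [Fintype.sum_prod_type]
        conv_rhs => rw [← harm y]
        refine sum_congr rfl fun x _ => ?_
        simp only [Fintype.sum_bool, hw', ht', if_true, if_false, Bool.false_eq_true]
        rw [mul_neg, map_neg, star_neg, neg_mul_neg, ← add_smul]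
        congr 1
        push_cast
        ring
      rmod := hS }
  have h1 := LA_signed hϖ hc hm hd y
  have h2 : ∑ x, w' x * ‖ϖ (Dl S t' y x) ξ‖ ^ 2 =
      ∑ ω, w ω * ‖ϖ (S (y * t ω) * star (t ω) - S y) ξ‖ ^ 2 := by
    rw [Fintype.sum_prod_type]
    refine sum_congr rfl fun x _ => ?_
    simp only [Fintype.sum_bool, hw', ht', if_true, if_false, Bool.false_eq_true, Dl]
    rw [mul_neg, map_neg, star_neg, neg_mul_neg]
    ring
  rw [h2] at h1
  have hH : 0 < Hn m := Hn_pos hm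
  have hH' : (∑ k ∈ range m, 1 / ((k : ℝ) + 1)) = Hn m := rfl
  rw [hH', le_div_iff₀ (by positivity)]
  calc _ = Hn m ^ 2 * ∑ ω, w ω * ‖ϖ (S (y * t ω) * star (t ω) - S y) ξ‖ ^ 2 := by ring
    _ ≤ _ := h1
    _ = _ := by ring

end

end Crest.Agent.R121.Fin
end

-- ▼ part R121/Fin/MMFin

/-!
# Row 121, block FIN: step MM, final form
-/

set_option autoImplicit false
set_option linter.unusedSectionVars false

namespace Crest.Agent.R121.Fin

open scoped InnerProductSpace Topology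
open ContinuousLinearMap Filter Finset

noncomputable section

universe u

variable {H : Type u} [NormedAddCommGroup H] [InnerProductSpace ℂ H] [CompleteSpace H]

theorem laHyp (M : VonNeumannAlgebra H) {p : M.toStarSubalgebra} {ξ : H} {K : ℝ}
    (hc : Cor (vinc M) p ξ K) {m : ℕ} (hm : 0 < m)
    {e : Fin (2 * m) → Fin (2 * m) → M.toStarSubalgebra}
    (he : MU p (2 * m) e) : LAHyp M p ξ K m e := by
  intro S hS Ω _ w hw hw1 t ht hte harm y
  exact LA norm_vinc hc hm he hS w hw hw1 t ht hte harm y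

/-- **Step MM.** -/
theorem mm (M : VonNeumannAlgebra H) {p : M.toStarSubalgebra} {ξ : H} {K : ℝ}
    (hc : Cor (vinc M) p ξ K) {m : ℕ} (hm : 0 < m)
    {e : Fin (2 * m) → Fin (2 * m) → M.toStarSubalgebra}
    (he : MU p (2 * m) e)
    (F : Finset (EndA M × M.toStarSubalgebra)) {ε : ℝ} (hε0 : 0 < ε)
    (hε : ∀ q ∈ F, (F.card : ℝ) * (K * laB K m ξ q.1 q.2) < ε ^ 2) :
    ∃ Λ : EndA M →ₗ[ℂ] EndA M, IsAvg Λ ∧ (∀ T, RMod e (cut p (Λ T))) ∧
      ∀ q ∈ F, ∀ t, CU p t → (∀ i j, t * e i j = e i j * t) →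
        ‖((cut p (Λ q.1) (q.2 * t) - cut p (Λ q.1) q.2 * t : M.toStarSubalgebra) :
          H →L[ℂ] H) ξ‖ ≤ ε :=
  mm_of_LA M hc he (laHyp M hc hm he) F hε0 hε

end

end Crest.Agent.R121.Fin
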