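import Mathlib
import Crest.Agent.R121.Fin.Cut
import Crest.Agent.R121.Fin.LB_Mg
import Crest.Agent.R121.Fin.CornerSpan
import Crest.Agent.R121.Fin.MMFin

/-!
# Row 121, block FIN: assembly

From the minimax theorem `mm` and the lower bound `LB` to averages which are right modular over
the whole corner.
-/

set_option autoImplicit false
set_option linter.unusedSectionVars false

namespace Crest.Agent.R121.Fin

open scoped InnerProductSpace Topology Matrix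
open ContinuousLinearMap Filter Finset

noncomputable section

universe u

variable {H : Type u} [NormedAddCommGroup H] [InnerProductSpace ℂ H] [CompleteSpace H]
variable {M : VonNeumannAlgebra H}

/-- the harmonic sums diverge -/
lemma tendsto_harmonic_two_pow :
    Tendsto (fun l : ℕ => ∑ k ∈ range (2 ^ l), 1 / ((k : ℝ) + 1)) atTop atTop := by
  have h := Real.tendsto_sum_range_one_div_nat_succ_atTop
  exact h.comp (tendsto_pow_atTop_atTop_of_one_lt one_lt_two)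

lemma exists_MU_two_mul {p : M.toStarSubalgebra}
    (hmu : ∀ l : ℕ, ∃ e : Fin (2 ^ l) → Fin (2 ^ l) → M.toStarSubalgebra, MU p (2 ^ l) e) (l : ℕ) :
    ∃ e : Fin (2 * 2 ^ l) → Fin (2 * 2 ^ l) → M.toStarSubalgebra, MU p (2 * 2 ^ l) e := by
  have h : ∀ n : ℕ, n = 2 ^ (l + 1) →
      ∃ e : Fin n → Fin n → M.toStarSubalgebra, MU p n e := by
    rintro n rfl
    exact hmu (l + 1)
  exact h _ (pow_succ' 2 l).symm

lemma norm_smul_vec (ξ : H) (x : M.toStarSubalgebra) (c : ℂ) :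
    ‖((c • x : M.toStarSubalgebra) : H →L[ℂ] H) ξ‖ = ‖c‖ * ‖(x : H →L[ℂ] H) ξ‖ := by
  change ‖c • (x : H →L[ℂ] H) ξ‖ = _
  rw [norm_smul]

lemma norm_smul_ofReal (y : M.toStarSubalgebra) {r : ℝ} (hr : 0 ≤ r) :
    ‖((r : ℂ)) • y‖ = r * ‖y‖ := by
  rw [norm_smul, Complex.norm_real, Real.norm_of_nonneg hr]

/-- scaling in the lower bound -/
lemma lb_scaled {p : M.toStarSubalgebra} {ξ : H} {X ε R : ℝ} {n : ℕ}
    {e : Fin n → Fin n → M.toStarSubalgebra} {S : EndA M} (hR : 1 ≤ R)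
    {y a : M.toStarSubalgebra} (hy : ‖y‖ ≤ R)
    (h : ∀ y' : M.toStarSubalgebra, ‖y'‖ ≤ 1 → (∀ t, CU p t → (∀ i j, t * e i j = e i j * t) →
      ‖((S (y' * t) - S y' * t : M.toStarSubalgebra) : H →L[ℂ] H) ξ‖ ≤ ε ∧
      ‖((S (y' * star a * t) - S (y' * star a) * t : M.toStarSubalgebra) : H →L[ℂ] H) ξ‖ ≤ ε) →
      ‖((S (y' * star a) * a - S y' : M.toStarSubalgebra) : H →L[ℂ] H) ξ‖ ≤ X)
    (h1 : ∀ t, CU p t → (∀ i j, t * e i j = e i j * t) →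
      ‖((S (y * t) - S y * t : M.toStarSubalgebra) : H →L[ℂ] H) ξ‖ ≤ ε)
    (h2 : ∀ t, CU p t → (∀ i j, t * e i j = e i j * t) →
      ‖((S (y * star a * t) - S (y * star a) * t : M.toStarSubalgebra) : H →L[ℂ] H) ξ‖ ≤ ε) :
    ‖((S (y * star a) * a - S y : M.toStarSubalgebra) : H →L[ℂ] H) ξ‖ ≤ R * X := by
  have hR0 : 0 < R := by linarith
  have hRi : 0 ≤ R⁻¹ := by positivity
  have hRi1 : R⁻¹ ≤ 1 := inv_le_one_of_one_le₀ hR
  have hcR : ‖(((R⁻¹ : ℝ) : ℂ))‖ = R⁻¹ := by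
    rw [Complex.norm_real, Real.norm_of_nonneg hRi]
  have e1 : ∀ t : M.toStarSubalgebra, S ((((R⁻¹ : ℝ) : ℂ)) • y * t) - S ((((R⁻¹ : ℝ) : ℂ)) • y) * t
      = (((R⁻¹ : ℝ) : ℂ)) • (S (y * t) - S y * t) := by
    intro t
    rw [smul_mul_assoc, map_smul, map_smul, smul_mul_assoc, smul_sub]
  have e2 : ∀ t : M.toStarSubalgebra,
      S ((((R⁻¹ : ℝ) : ℂ)) • y * star a * t) - S ((((R⁻¹ : ℝ) : ℂ)) • y * star a) * t
      = (((R⁻¹ : ℝ) : ℂ)) • (S (y * star a * t) - S (y * star a) * t) := by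
    intro t
    rw [smul_mul_assoc, smul_mul_assoc, map_smul, map_smul, smul_mul_assoc, smul_sub]
  have e3 : S ((((R⁻¹ : ℝ) : ℂ)) • y * star a) * a - S ((((R⁻¹ : ℝ) : ℂ)) • y)
      = (((R⁻¹ : ℝ) : ℂ)) • (S (y * star a) * a - S y) := by
    rw [smul_mul_assoc, map_smul, map_smul, smul_mul_assoc, smul_sub]
  have h0 : 0 ≤ ε → True := fun _ => trivial
  have h3 := h ((((R⁻¹ : ℝ) : ℂ)) • y) (by
    rw [norm_smul_ofReal y hRi, inv_mul_le_iff₀ hR0, mul_one]; exact hy) (by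
    intro t ht htc
    rw [e1, e2, norm_smul_vec, norm_smul_vec, hcR]
    have h5 := h1 t ht htc
    have h6 := h2 t ht htc
    constructor
    · calc _ ≤ 1 * ε := mul_le_mul hRi1 h5 (norm_nonneg _) zero_le_one
        _ = ε := one_mul _
    · calc _ ≤ 1 * ε := mul_le_mul hRi1 h6 (norm_nonneg _) zero_le_one
        _ = ε := one_mul _)
  rw [e3, norm_smul_vec, hcR, inv_mul_le_iff₀ hR0] at h3
  exact h3

/-- approximate right modularity on finite sets -/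
theorem approx {p : M.toStarSubalgebra} {ξ : H} {K : ℝ} (hc : Cor (vinc M) p ξ K)
    (hmu : ∀ l : ℕ, ∃ e : Fin (2 ^ l) → Fin (2 ^ l) → M.toStarSubalgebra, MU p (2 ^ l) e)
    (F : Finset (EndA M × M.toStarSubalgebra × {a : M.toStarSubalgebra // CU p a})) {δ : ℝ}
    (hδ : 0 < δ) :
    ∃ Λ : EndA M →ₗ[ℂ] EndA M, IsAvg Λ ∧ ∀ q ∈ F,
      ‖((cut p (Λ q.1) (q.2.1 * star (q.2.2 : M.toStarSubalgebra)) * (q.2.2 : M.toStarSubalgebra) -
        cut p (Λ q.1) q.2.1 : M.toStarSubalgebra) : H →L[ℂ] H) ξ‖ ≤ δ := by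
  classical
  have hp := hc.star_p
  have hpp := hc.p_p
  set c0 : ℝ := 16 * Real.pi with hc0
  -- the bounds for `T` and `y`
  set C : ℝ := ∑ q ∈ F, ‖q.1‖ with hC
  set R : ℝ := 1 + ∑ q ∈ F, ‖q.2.1‖ with hR
  have hCq : ∀ q ∈ F, ‖q.1‖ ≤ C := fun q hq =>
    single_le_sum (f := fun q : EndA M × M.toStarSubalgebra × {a : M.toStarSubalgebra // CU p a} =>
      ‖q.1‖) (fun _ _ => norm_nonneg _) hq
  have hRq : ∀ q ∈ F, ‖q.2.1‖ ≤ R := fun q hq => by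
    have := single_le_sum (f := fun q : EndA M × M.toStarSubalgebra ×
      {a : M.toStarSubalgebra // CU p a} => ‖q.2.1‖) (fun _ _ => norm_nonneg _) hq
    linarith
  have hR1 : 1 ≤ R := by
    have : 0 ≤ ∑ q ∈ F, ‖q.2.1‖ := sum_nonneg fun _ _ => norm_nonneg _
    linarith
  have hR0 : 0 < R := by linarith
  -- choose `J`
  obtain ⟨J, hJ2, hJ⟩ : ∃ J : ℕ, 2 ≤ J ∧
      R * (c0 * Real.sqrt K * C * ‖ξ‖) ≤ δ / 2 * Real.log J := by
    have h1 : Tendsto (fun J : ℕ => δ / 2 * Real.log J) atTop atTop :=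
      (Real.tendsto_log_atTop.comp tendsto_natCast_atTop_atTop).const_mul_atTop (by positivity)
    obtain ⟨J, hJ⟩ := ((eventually_ge_atTop 2).and (h1.eventually_ge_atTop
      (R * (c0 * Real.sqrt K * C * ‖ξ‖)))).exists
    exact ⟨J, hJ⟩
  have hlog : 0 < Real.log J := Real.log_pos (by exact_mod_cast hJ2)
  set B : ℝ := 2 * Real.sqrt (LBB K J) with hB
  -- choose `ε`
  obtain ⟨ε, hε, hεB⟩ : ∃ ε : ℝ, 0 < ε ∧ R * (|B| * ε) ≤ δ / 2 * Real.log J := by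
    refine ⟨δ / 2 * Real.log J / (R * (|B| + 1)), by positivity, ?_⟩
    have h3 : R * (|B| * (δ / 2 * Real.log J / (R * (|B| + 1)))) =
        (|B| / (|B| + 1)) * (δ / 2 * Real.log J) := by
      field_simp
    rw [h3]
    have h4 : |B| / (|B| + 1) ≤ 1 := by
      rw [div_le_one (by positivity)]; linarith
    have h5 : 0 ≤ δ / 2 * Real.log J := by positivity
    nlinarith
  -- the finite set for `MM`
  set F' : Finset (EndA M × M.toStarSubalgebra) :=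
    F.image (fun q => (q.1, q.2.1)) ∪
      F.image (fun q => (q.1, q.2.1 * star (q.2.2 : M.toStarSubalgebra))) with hF'
  -- choose the size
  obtain ⟨l, hl⟩ : ∃ l : ℕ, ∀ q ∈ F', F'.card * (K * (2 * K * Real.pi ^ 2 * ‖q.1‖ ^ 2 *
      ‖q.2‖ ^ 2 * ‖ξ‖ ^ 2 / (∑ k ∈ range (2 ^ l), 1 / ((k : ℝ) + 1)) ^ 2)) < ε ^ 2 := by
    have h1 : ∀ q ∈ F', ∀ᶠ l : ℕ in atTop, F'.card * (K * (2 * K * Real.pi ^ 2 * ‖q.1‖ ^ 2 *
        ‖q.2‖ ^ 2 * ‖ξ‖ ^ 2 / (∑ k ∈ range (2 ^ l), 1 / ((k : ℝ) + 1)) ^ 2)) < ε ^ 2 := by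
      intro q _
      have h2 : Tendsto (fun l : ℕ => (∑ k ∈ range (2 ^ l), 1 / ((k : ℝ) + 1)) ^ 2) atTop atTop :=
        (tendsto_pow_atTop two_ne_zero).comp tendsto_harmonic_two_pow
      have h3 := (((tendsto_const_nhds (x := 2 * K * Real.pi ^ 2 * ‖q.1‖ ^ 2 *
        ‖q.2‖ ^ 2 * ‖ξ‖ ^ 2)).div_atTop h2).const_mul K).const_mul (F'.card : ℝ)
      rw [mul_zero, mul_zero] at h3
      exact h3.eventually_lt_const (by positivity)
    exact ((eventually_all_finset F').2 h1).exists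
  obtain ⟨e, he⟩ := exists_MU_two_mul hmu l
  obtain ⟨Λ, hΛ, hmod, hΛF⟩ := mm M hc (m := 2 ^ l) (by positivity) he F' hε hl
  obtain ⟨h, h1, _, h2⟩ := exists_flat_unitary (2 * 2 ^ l) (by positivity)
  refine ⟨Λ, hΛ, fun q hq => ?_⟩
  obtain ⟨T, y, a, ha⟩ := q
  have hy : ‖y‖ ≤ R := hRq (T, y, ⟨a, ha⟩) hq
  have hT : ‖T‖ ≤ C := hCq (T, y, ⟨a, ha⟩) hq
  have hS : ‖cut p (Λ T)‖ ≤ C := (norm_cut_le hp hpp _).trans ((hΛ.norm T).trans hT)
  have hfin := lb_scaled (p := p) (e := e) hR1 hy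
    (fun y' hy' hsm => LB_log norm_vinc hc he h1 (by exact_mod_cast h2) hS (hmod T)
      (fun x => ⟨cut_mul_p hpp _ x, cut_p hpp _ x⟩) y' a hy' ha hsm hJ2)
    (fun t ht htc => hΛF (T, y) (mem_union_left _ (mem_image.2 ⟨_, hq, rfl⟩)) t ht htc)
    (fun t ht htc => hΛF (T, y * star a) (mem_union_right _ (mem_image.2 ⟨_, hq, rfl⟩)) t ht htc)
  refine hfin.trans ?_
  rw [← mul_div_assoc, div_le_iff₀ hlog]
  have h5 : B * ε ≤ |B| * ε := mul_le_mul_of_nonneg_right (le_abs_self B) hε.le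
  have h6 := mul_le_mul_of_nonneg_left h5 hR0.le
  linarith

end

end Crest.Agent.R121.Fin
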