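import Mathlib
import Crest.Agent.R121.Fin.Defs
import Crest.Agent.R121.Fin.Hilbert

-- ▼ part R121/Fin/Path
section

/-!
# Row 121, block FIN: iterated averages of functions of a path
-/

set_option autoImplicit false

namespace Crest.Agent.R121.Fin

open Finset Function

section
variable {X : Type*} [Fintype X]

/-- average over the `k`-th coordinate -/
noncomputable def avg (w : X → ℝ) (k : ℕ) (F : (ℕ → X) → ℝ) (τ : ℕ → X) : ℝ :=
  ∑ x, w x * F (update τ k x)

/-- average over the coordinates `< n` -/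
noncomputable def ex (w : X → ℝ) : ℕ → ((ℕ → X) → ℝ) → (ℕ → X) → ℝ
  | 0, F => F
  | n + 1, F => ex w n (avg w n F)

variable {w : X → ℝ}

theorem avg_add (k : ℕ) (F G : (ℕ → X) → ℝ) :
    avg w k (fun τ => F τ + G τ) = fun τ => avg w k F τ + avg w k G τ := by
  ext τ
  simp [avg, mul_add, sum_add_distrib]

theorem avg_const_mul (k : ℕ) (c : ℝ) (F : (ℕ → X) → ℝ) :
    avg w k (fun τ => c * F τ) = fun τ => c * avg w k F τ := by
  ext τ
  simp only [avg, mul_sum]
  exact sum_congr rfl fun x _ => by ring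

theorem avg_mono (hw : ∀ x, 0 ≤ w x) (k : ℕ) {F G : (ℕ → X) → ℝ} (h : ∀ τ, F τ ≤ G τ) (τ : ℕ → X) :
    avg w k F τ ≤ avg w k G τ :=
  sum_le_sum fun x _ => mul_le_mul_of_nonneg_left (h _) (hw x)

theorem avg_idem (hw1 : ∑ x, w x = 1) (k : ℕ) (F : (ℕ → X) → ℝ) :
    avg w k (avg w k F) = avg w k F := by
  ext τ
  have h1 : ∀ x, avg w k F (update τ k x) = avg w k F τ := by
    intro x
    simp [avg, update_idem]
  conv_lhs => rw [avg]
  simp only [h1]
  rw [← sum_mul, hw1, one_mul]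

theorem avg_comm {k l : ℕ} (hkl : k ≠ l) (F : (ℕ → X) → ℝ) :
    avg w k (avg w l F) = avg w l (avg w k F) := by
  ext τ
  simp only [avg, mul_sum]
  rw [sum_comm]
  refine sum_congr rfl fun x _ => sum_congr rfl fun x' _ => ?_
  rw [update_comm hkl]
  ring

theorem ex_add (n : ℕ) (F G : (ℕ → X) → ℝ) :
    ex w n (fun τ => F τ + G τ) = fun τ => ex w n F τ + ex w n G τ := by
  induction n generalizing F G with
  | zero => rfl
  | succ n ih =>
    rw [ex, avg_add, ih]
    rfl

theorem ex_const_mul (n : ℕ) (c : ℝ) (F : (ℕ → X) → ℝ) :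
    ex w n (fun τ => c * F τ) = fun τ => c * ex w n F τ := by
  induction n generalizing F with
  | zero => rfl
  | succ n ih =>
    rw [ex, avg_const_mul, ih]
    rfl

theorem ex_zero (n : ℕ) (τ : ℕ → X) : ex w n (fun _ => 0) τ = 0 := by
  have := congrFun (ex_const_mul (w := w) n 0 (fun _ => 0)) τ
  simpa using this

theorem ex_sum {ι : Type*} (s : Finset ι) (n : ℕ) (F : ι → (ℕ → X) → ℝ) (τ : ℕ → X) :
    ex w n (fun τ => ∑ i ∈ s, F i τ) τ = ∑ i ∈ s, ex w n (F i) τ := by
  classical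
  induction s using Finset.induction_on with
  | empty => simp [ex_zero]
  | insert a s ha ih =>
    simp only [sum_insert ha]
    rw [ex_add]
    simp only
    rw [ih]

theorem ex_mono (hw : ∀ x, 0 ≤ w x) (n : ℕ) {F G : (ℕ → X) → ℝ} (h : ∀ τ, F τ ≤ G τ)
    (τ : ℕ → X) : ex w n F τ ≤ ex w n G τ := by
  induction n generalizing F G with
  | zero => exact h τ
  | succ n ih => exact ih (avg_mono hw n h)

theorem ex_const (hw1 : ∑ x, w x = 1) (n : ℕ) (c : ℝ) (τ : ℕ → X) :
    ex w n (fun _ => c) τ = c := by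
  induction n with
  | zero => rfl
  | succ n ih =>
    have : avg w n (fun _ : ℕ → X => c) = fun _ => c := by
      ext τ
      simp only [avg]
      rw [← sum_mul, hw1, one_mul]
    rw [ex, this, ih]

theorem ex_avg (hw1 : ∑ x, w x = 1) {n k : ℕ} (hk : k < n) (F : (ℕ → X) → ℝ) :
    ex w n (avg w k F) = ex w n F := by
  induction n generalizing F with
  | zero => exact absurd hk (Nat.not_lt_zero _)
  | succ n ih =>
    rw [ex, ex]
    rcases Nat.lt_succ_iff_lt_or_eq.1 hk with h | h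
    · rw [avg_comm (Nat.ne_of_gt h), ih h]
    · subst h
      rw [avg_idem hw1]

/-- two functions with the same average over one coordinate have the same expectation -/
theorem ex_congr (hw1 : ∑ x, w x = 1) {n k : ℕ} (hk : k < n) {F G : (ℕ → X) → ℝ}
    (h : ∀ τ, avg w k F τ = avg w k G τ) (τ : ℕ → X) : ex w n F τ = ex w n G τ := by
  rw [← ex_avg hw1 hk F, ← ex_avg hw1 hk G]
  have h' : avg w k F = avg w k G := funext h
  rw [h']

/-- expectation of a function of one coordinate -/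
theorem ex_coord (hw1 : ∑ x, w x = 1) {n k : ℕ} (hk : k < n) (F : X → ℝ) (τ : ℕ → X) :
    ex w n (fun τ => F (τ k)) τ = ∑ x, w x * F x := by
  have h : ∀ τ, avg w k (fun τ => F (τ k)) τ = avg w k (fun _ => ∑ x, w x * F x) τ := by
    intro τ
    simp only [avg, update_self]
    rw [← sum_mul, hw1, one_mul]
  rw [ex_congr hw1 hk h, ex_const hw1]

/-- if the average over one coordinate vanishes, so does the expectation -/
theorem ex_eq_zero (hw1 : ∑ x, w x = 1) {n k : ℕ} (hk : k < n) {F : (ℕ → X) → ℝ}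
    (h : ∀ τ, avg w k F τ = 0) (τ : ℕ → X) : ex w n F τ = 0 := by
  rw [← ex_avg hw1 hk F]
  have : avg w k F = fun _ => 0 := funext h
  rw [this, ex_zero]

/-- odd functions have vanishing expectation -/
theorem ex_odd (hw1 : ∑ x, w x = 1) {neg : X → X} (hn : Involutive neg)
    (hwn : ∀ x, w (neg x) = w x) {n k : ℕ} (hk : k < n) {F : (ℕ → X) → ℝ}
    (h : ∀ τ, F (update τ k (neg (τ k))) = - F τ) (τ : ℕ → X) : ex w n F τ = 0 := by
  refine ex_eq_zero hw1 hk (fun τ => ?_) τ
  have h1 : avg w k F τ = - avg w k F τ := by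
    conv_lhs => rw [avg]
    rw [← Equiv.sum_comp (hn.toPerm neg)]
    rw [avg, ← sum_neg_distrib]
    refine sum_congr rfl fun x _ => ?_
    have h2 := h (update τ k x)
    rw [update_self, update_idem] at h2
    simp only [Involutive.coe_toPerm]
    rw [hwn, h2]
    ring
  linarith

end

end Crest.Agent.R121.Fin
private theorem rz_4207d16e28 : type_of% @_root_.Crest.Agent.R121.Fin.ex.eq_def := @_root_.Crest.Agent.R121.Fin.ex.eq_def -- L21
private theorem rz_d5f5d3d2fc : type_of% @_root_.Crest.Agent.R121.Fin.ex.eq_1 := @_root_.Crest.Agent.R121.Fin.ex.eq_1 -- L21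
end

-- ▼ part R121/Fin/Walk

/-!
# Row 121, block FIN, module LA, part 1: the random walk in the commutant of matrix units
-/

set_option autoImplicit false

namespace Crest.Agent.R121.Fin

open Finset Function Real
open scoped InnerProductSpace

section
variable {A : Type*} [CStarAlgebra A]
variable {H : Type*} [NormedAddCommGroup H] [InnerProductSpace ℂ H] [CompleteSpace H]

/-- orthogonal sums -/
theorem norm_sq_sum {ι : Type*} (s : Finset ι) (a : ι → H)
    (h : ∀ i ∈ s, ∀ j ∈ s, i ≠ j → ⟪a i, a j⟫_ℂ = 0) :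
    ‖∑ i ∈ s, a i‖ ^ 2 = ∑ i ∈ s, ‖a i‖ ^ 2 := by
  have h1 : ((‖∑ i ∈ s, a i‖ ^ 2 : ℝ) : ℂ) = ((∑ i ∈ s, ‖a i‖ ^ 2 : ℝ) : ℂ) := by
    have e1 : ((‖∑ i ∈ s, a i‖ ^ 2 : ℝ) : ℂ) = ⟪∑ i ∈ s, a i, ∑ i ∈ s, a i⟫_ℂ := by
      rw [inner_self_eq_norm_sq_to_K]; norm_cast
    rw [e1, sum_inner]
    push_cast
    refine sum_congr rfl fun i hi => ?_
    rw [inner_sum, sum_eq_single i]
    · rw [inner_self_eq_norm_sq_to_K]; norm_cast
    · intro j hj hji
      exact h i hi j hj (Ne.symm hji)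
    · intro hi'
      exact absurd hi hi'
  exact_mod_cast h1

variable {p : A}

theorem norm_le_one_of_proj (hp : star p = p) (hpp : p * p = p) : ‖p‖ ≤ 1 := by
  have h : ‖p‖ * ‖p‖ = ‖p‖ := by
    rw [← CStarRing.norm_star_mul_self, hp, hpp]
  nlinarith [norm_nonneg p]

theorem CU.norm_le {u : A} (hp : star p = p) (hpp : p * p = p) (hu : CU p u) : ‖u‖ ≤ 1 := by
  have h : ‖u‖ * ‖u‖ = ‖p‖ := by
    rw [← CStarRing.norm_star_mul_self, hu.st_mul]
  nlinarith [norm_nonneg u, norm_le_one_of_proj hp hpp]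

variable {n : ℕ} {e : Fin n → Fin n → A}

theorem MU.norm_le (he : MU p n e) (i j : Fin n) : ‖e i j‖ ≤ 1 := by
  have h1 : ‖e j j‖ ≤ 1 := norm_le_one_of_proj (he.st j j) (by rw [he.mul, if_pos rfl])
  have h : ‖e i j‖ * ‖e i j‖ = ‖e j j‖ := by
    rw [← CStarRing.norm_star_mul_self, he.st, he.mul, if_pos rfl]
  nlinarith [norm_nonneg (e i j)]

variable (ϖ : A →⋆ₐ[ℂ] (H →L[ℂ] H))

theorem norm_rep_le (hϖ : ∀ x, ‖ϖ x‖ = ‖x‖) (x : A) (v : H) : ‖ϖ x v‖ ≤ ‖x‖ * ‖v‖ := by
  rw [← hϖ x]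
  exact (ϖ x).le_opNorm v

theorem inner_rep_left (x : A) (v w : H) : ⟪ϖ x v, w⟫_ℂ = ⟪v, ϖ (star x) w⟫_ℂ := by
  rw [map_star, ContinuousLinearMap.star_eq_adjoint, ContinuousLinearMap.adjoint_inner_right]

theorem norm_sq_rep (x : A) (v : H) : ‖ϖ x v‖ ^ 2 = (⟪v, ϖ (star x * x) v⟫_ℂ).re := by
  rw [map_mul, mul_apply_eq_comp, ← inner_rep_left]
  rw [← inner_self_eq_norm_sq (𝕜 := ℂ)]
  rfl

theorem norm_rep_eq (x y : A) (h : star x * x = star y * y) (v : H) : ‖ϖ x v‖ = ‖ϖ y v‖ := by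
  have : ‖ϖ x v‖ ^ 2 = ‖ϖ y v‖ ^ 2 := by rw [norm_sq_rep, norm_sq_rep, h]
  exact (sq_eq_sq₀ (norm_nonneg _) (norm_nonneg _)).1 this

variable {X : Type*} (t : X → A)

/-- the position of the walk -/
def wk (p : A) (τ : ℕ → X) : ℕ → A
  | 0 => p
  | i + 1 => wk p τ i * t (τ i)

variable {t}

theorem wk_update {τ : ℕ → X} {k i : ℕ} (x : X) (h : i ≤ k) :
    wk t p (update τ k x) i = wk t p τ i := by
  induction i with
  | zero => rfl
  | succ i ih =>
    rw [wk, wk, ih (by omega), update_of_ne (by omega)]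

theorem wk_update_succ {τ : ℕ → X} {k : ℕ} (x : X) :
    wk t p (update τ k x) (k + 1) = wk t p τ k * t x := by
  rw [wk, wk_update x le_rfl, update_self]

theorem wk_CU (hp : star p = p) (hpp : p * p = p) (ht : ∀ x, CU p (t x)) (τ : ℕ → X) (i : ℕ) :
    CU p (wk t p τ i) := by
  induction i with
  | zero => exact CU.one' hp hpp
  | succ i ih => exact ih.mul' (ht _)

theorem wk_comm (he : MU p n e) (htc : ∀ x i j, t x * e i j = e i j * t x) (τ : ℕ → X) (k : ℕ)
    (i j : Fin n) : wk t p τ k * e i j = e i j * wk t p τ k := by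
  induction k with
  | zero => rw [wk, he.left, he.right]
  | succ k ih => rw [wk, mul_assoc, htc, ← mul_assoc, ih, mul_assoc]

theorem star_comm (he : MU p n e) {u : A} (h : ∀ i j, u * e i j = e i j * u) (i j : Fin n) :
    star u * e i j = e i j * star u := by
  have := congrArg star (h j i)
  rw [star_mul, star_mul, he.st] at this
  exact this.symm

theorem wk_neg {neg : X → X} (htn : ∀ x, t (neg x) = - t x) {τ : ℕ → X} {k : ℕ} (i : ℕ)
    (h : k < i) : wk t p (update τ k (neg (τ k))) i = - wk t p τ i := by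
  induction i with
  | zero => exact absurd h (Nat.not_lt_zero _)
  | succ i ih =>
    rw [wk, wk]
    rcases Nat.lt_succ_iff_lt_or_eq.1 h with h | h
    · rw [ih h, update_of_ne (by omega), neg_mul]
    · subst h
      rw [wk_update _ le_rfl, update_self, htn, mul_neg]

end

end Crest.Agent.R121.Fin
private theorem rz_f36ff7cdab : type_of% @_root_.Crest.Agent.R121.Fin.wk.eq_def := @_root_.Crest.Agent.R121.Fin.wk.eq_def -- L79
private theorem rz_1f972811f1 : type_of% @_root_.Crest.Agent.R121.Fin.wk.eq_1 := @_root_.Crest.Agent.R121.Fin.wk.eq_1 -- L79
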